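import Vale.Agent.P193.Full.Core.Inst.Laws.Paths
import Vale.Agent.P193.Full.Core.Facts.Rules

/-! For every list of inner generators a clean path guesses it and ends in a certificate; the
final field is carried along it into the field of the certificate. -/

namespace Vale.Agent.P193.Core.Inst.Laws

open Calc Facts Classical

set_option linter.unusedSectionVars false

variable {d : Data} [DecidableEq d.M.A]

/-- A clean path guessing a given list, with the offset of the certificate of the right mode. -/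
theorem exists_guess_path (hG : Good d) (v : List (Fin d.n)) (b : Bool)
    (h : (v.map d.gen).prod = 1 ↔ b = true) :
    ∃ σ : Path d .guess, clean d σ ∧ offset d σ = cval d b ∧ letters σ = v := by
  have hrow := (hG.lawful.correct v.reverse b).2 (by rw [hG.pred, List.reverse_reverse]; exact h)
  obtain ⟨τ, hτ⟩ := (row_path_iff hG false (d.M.initRow v.reverse b)).2 hrow
  obtain ⟨σ₀, hσ₀⟩ : ∃ σ₀ : Path d .guess, σ₀ = Path.cons _ Edge.OK.exit τ := ⟨_, rfl⟩
  have ho₀ : offset d σ₀ = legit v.reverse b := by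
    rw [hσ₀, offset_cons_plain _ _ _ rfl rfl, hτ, ← legit_row, ← mul_assoc (FreeGroup.mk _),
      show FreeGroup.mk [((d.M.first, false), false)] =
        (FreeGroup.mk [((d.M.first, false), true)] : FA d)⁻¹ by rw [FreeGroup.inv_mk]; rfl,
      inv_mul_cancel, one_mul]
  have hpre : ∀ w : List (Fin d.n), ∃ σ : Path d .guess, clean d σ ∧
      offset d σ = (guessed w)⁻¹ * offset d σ₀ ∧ letters σ = w := by
    intro w
    induction w with
    | nil => exact ⟨σ₀, by subst hσ₀; simp [clean], by simp [guessed, pw_nil],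
        by subst hσ₀; rfl⟩
    | cons i w ih =>
      obtain ⟨σ, h1, h2, h3⟩ := ih
      refine ⟨Path.cons _ (Edge.OK.letter i) σ, h1, ?_, by rw [← h3]; rfl⟩
      rw [offset_cons_plain _ _ _ rfl rfl, h2, guessed_cons, mul_inv_rev, mul_assoc]
      congr 1
  obtain ⟨σ, h1, h2, h3⟩ := hpre v
  refine ⟨σ, h1, ?_, h3⟩
  rw [h2, ho₀, guessed, legit, legitRow, pw_append, inv_mul_cancel_left]
  rfl

/-- The points of the guess state with the offset of a certificate. -/
def zCert (b c : Bool) : Set (Point d) :=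
  outPerm ((1, cval d c, 1) : Outer d) '' Base.set ⟨.guess, b, .zOne⟩

/-- The certificates. -/
def certSet (b c : Bool) : Set (Point d) :=
  Base.set ⟨.guess, b, .clean⟩ ∩ Base.set ⟨.guess, b, .hOne⟩ ∩ zCert b c

theorem certSet_subset {b c : Bool} {x : Point d} (hx : x ∈ certSet b c) :
    x ∈ certS c ∧ x.tag = b := by
  obtain ⟨⟨hc, hh⟩, y, hy, rfl⟩ := hx
  refine ⟨⟨⟨hc.2, hh.2⟩, ?_⟩, hy.1.2⟩
  have hz : y.h.2.1⁻¹ * offset d y.σ * y.h.2.2 = 1 := hy.2
  show (y.h.2.1 * (cval d c)⁻¹)⁻¹ * offset d y.σ * (y.h.2.2 * (1 : FA d)⁻¹) = cval d c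
  rw [mul_inv_rev, inv_inv, inv_one, mul_one, mul_assoc, mul_assoc, ← mul_assoc _ _ y.h.2.2, hz,
    mul_one]

variable {F : Calc.Frame (Point d)}

/-- The facts used for certificates. -/
structure Certs {F : Calc.Frame (Point d)} (M : F.Model) : Prop where
  keep : ∀ o b, oL F o ∈ keeps M (fb M .guess b .clean)
  diagZ : ∀ a b, oHom F (up₁ (FreeGroup.of a)) * oHom F (up₂ (FreeGroup.of a)) ∈
    keeps M (fb M .guess b .zOne)
  shiftZ : ∀ b c, cj (M.f (oHom F (up₁ (cval d c)))) (fb M .guess b .zOne) =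
    setFld M (zCert b c)
  meet : ∀ b c g, Frame.Good M (phi M) g → Calc.Le g (fb M .guess b .clean) →
    Calc.Le g (fb M .guess b .hOne) → Calc.Le g (setFld M (zCert b c)) →
    Calc.Le g (setFld M (certSet b c))
  good : ∀ b c, Frame.Good M (phi M) (setFld M (certSet b c))

variable (hG : Good d) (hF : IsCore F)
include hG hF

omit hG in
theorem isDiag_up₁ (u : FA d) :
    F.IsDiag (oHom F (up₁ u)) (outPerm ((1, u, 1) : Outer d)) :=
  isDiag_of (by rw [eval_oHom hF, oval_up₁])

omit hG in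
theorem hasSet_zCert (b c : Bool) : HasSet F (zCert (d := d) b c) :=
  (hasSet_base hF _).image (isDiag_up₁ hF _)

omit hG in
theorem hasSet_certSet (b c : Bool) : HasSet F (certSet (d := d) b c) :=
  ((hasSet_base hF _).inter (hasSet_base hF _)).inter (hasSet_zCert hF b c)

theorem ev_certs : F.Ev fun M => Certs M := by
  have := finite_og (d := d)
  have : Finite (Ltr d) :=
    Finite.of_injective (fun a => (Sum.inr (Sum.inl a) : OG d)) fun _ _ h => by simpa using h
  have hB := fun B => hasSet_base (F := F) hF (B := B)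
  have hd : ∀ a, F.IsDiag (oHom F (up₁ (FreeGroup.of a)) * oHom F (up₂ (FreeGroup.of a)))
      (outPerm ((1, FreeGroup.of a, FreeGroup.of a) : Outer d)) := fun a => isDiag_of (by
    rw [map_mul, eval_oHom hF, eval_oHom hF, ← map_mul, ← map_mul, oval_up₁, oval_up₂]
    simp)
  refine ((((Frame.Ev.all fun q : OG d × Bool => (ev_moves (isDiag_oL hF q.1)).and
      (ev_keep (isDiag_oL hF q.1) (hB ⟨.guess, q.2, .clean⟩)
        fun x => by rw [oL_apply]; exact Iff.rfl)).and
    (Frame.Ev.all fun q : Ltr d × Bool => (ev_moves (hd q.1)).and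
      (ev_keep (hd q.1) (hB ⟨.guess, q.2, .zOne⟩) ?_))).and
    (Frame.Ev.all fun q : Bool × Bool =>
      (ev_image (isDiag_up₁ hF (cval d q.2)) (hB ⟨.guess, q.1, .zOne⟩)).and
      ((ev_meet (hB ⟨.guess, q.1, .clean⟩) (hB ⟨.guess, q.1, .hOne⟩)).and
      ((ev_meet ((hB ⟨.guess, q.1, .clean⟩).inter (hB ⟨.guess, q.1, .hOne⟩))
        (hasSet_zCert hF q.1 q.2)).and (ev_setFld (hasSet_certSet hF q.1 q.2))))))).mono ?_
  · intro x
    show ((x.st = _ ∧ x.tag = _) ∧ zval d _ = 1) ↔ ((x.st = _ ∧ x.tag = _) ∧ zval d x = 1)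
    refine and_congr_right fun _ => ?_
    show (x.h.2.1 * (FreeGroup.of q.1)⁻¹)⁻¹ * offset d x.σ * (x.h.2.2 * (FreeGroup.of q.1)⁻¹) = 1
      ↔ x.h.2.1⁻¹ * offset d x.σ * x.h.2.2 = 1
    constructor <;> intro h
    · calc x.h.2.1⁻¹ * offset d x.σ * x.h.2.2
          = (FreeGroup.of q.1)⁻¹ * ((x.h.2.1 * (FreeGroup.of q.1)⁻¹)⁻¹ * offset d x.σ *
              (x.h.2.2 * (FreeGroup.of q.1)⁻¹)) * FreeGroup.of q.1 := by group
        _ = 1 := by rw [h]; group
    · calc _ = FreeGroup.of q.1 * (x.h.2.1⁻¹ * offset d x.σ * x.h.2.2) *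
            (FreeGroup.of q.1)⁻¹ := by group
        _ = 1 := by rw [h]; group
  rintro M ⟨⟨h1, h2⟩, h3⟩
  exact ⟨fun o b => h1 (o, b), fun a b => h2 (a, b), fun b c => (h3 (b, c)).1,
    fun b c g hg a1 a2 a3 => (h3 (b, c)).2.2.1 g hg ((h3 (b, c)).2.1 g hg a1 a2) a3,
    fun b c => (h3 (b, c)).2.2.2.2.2.2⟩

omit hG hF

variable {M : F.Model} (B : Basic M) (E : Edges M) (C : Certs M)
include B E C

theorem diag_keeps (b : Bool) (u : FA d) :
    cj (M.f (oHom F (up₁ u)) * M.f (oHom F (up₂ u))) (fb M .guess b .zOne) =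
      fb M .guess b .zOne := by
  induction u using FreeGroup.induction_on with
  | C1 => simp [cj_one]
  | of a => rw [← map_mul]; exact (C.diagZ a b).2
  | inv_of a h =>
    rw [map_inv, map_inv, map_inv, map_inv, map_inv, map_inv, ← mul_inv_rev,
      ← (E.cross _ _).eq]
    conv_lhs => rw [← h, cj_inv_cancel]
  | mul a c ha hc =>
    rw [map_mul up₁, map_mul up₂, map_mul, map_mul, map_mul, map_mul, mul_assoc,
      ← mul_assoc (M.f (oHom F (up₁ c))), (E.cross c a).eq, mul_assoc, ← mul_assoc, cj_mul, hc,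
      ha]

/-- Along a clean path to a certificate offset the final field goes into the certificate. -/
theorem path_cert (b c : Bool) (σ : Path d .guess) (hc : clean d σ) (ho : offset d σ = cval d c) :
    Calc.Le (cj (M.f ((rW F (spelled σ).1 (spelled σ).2)⁻¹ * pathW F σ))
      (fb M .fin b .hOne)) (setFld M (certSet b c)) := by
  set P := (spelled σ).1
  set Q := (spelled σ).2
  have hr : ∀ {S : Subgroup F.Free}, (∀ o, oL F o ∈ S) → (rW F P Q)⁻¹ ∈ S :=
    fun h => inv_mem (mul_mem (oHom_mem h _) (oHom_mem h _))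
  have hy : (rW F P Q)⁻¹ ∈ moves M := hr B.mO
  have hg := good_move hy (good_path B E σ (B.good ⟨.fin, b, .hOne⟩))
  rw [cj_cj]
  refine C.meet b c _ hg ?_ ?_ ?_
  · have h := le_cj (M.f (rW F P Q)⁻¹) (path_clean B E b σ fun _ => hc)
    rw [show cP (d := d) .guess = .clean from if_pos rfl,
      (hr fun o => C.keep o b).2] at h
    exact h
  · have h := le_cj (M.f (rW F P Q)⁻¹) (path_hOne B E b σ)
    rwa [cj_inv_left] at h
  · have e : M.f (rW F P Q)⁻¹ = M.f (oHom F (up₁ (cval d c))) *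
        (M.f (oHom F (up₁ Q)) * M.f (oHom F (up₂ Q))) := by
      rw [← ho, offset_eq]
      simp only [rW, map_mul, map_inv, mul_inv_rev, inv_inv]
      rw [← (E.cross P Q).eq, mul_assoc, inv_mul_cancel_left]
    have h := le_cj (M.f (rW F P Q)⁻¹) (path_zOne B E b σ)
    refine le_trans hg (good_move hy (B.good _)) ?_ h ?_
    · rw [← C.shiftZ]; exact good_move (B.mOH _) (B.good _)
    · rw [e, cj_mul, diag_keeps B E C b Q, C.shiftZ]
      exact Calc.Le.refl _

end Vale.Agent.P193.Core.Inst.Laws
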