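import Vale.Agent.P193.Full.Core.Inst.Laws.Outer

/-! Translates of the point predicates by different elements are disjoint. On the final field this
is the second machine rule at a negative certificate; pushes spread it. -/

namespace Vale.Agent.P193.Core.Inst.Laws

open Calc Facts Classical

set_option linter.unusedSectionVars false

variable {d : Data} [DecidableEq d.M.A] {F : Calc.Frame (Point d)}

/-- The rules for the point predicates. -/
structure DisjRules {F : Calc.Frame (Point d)} (M : F.Model) : Prop where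
  kBase : ∀ e : OEdge d, e.1.src = .guess → (∀ i, e.1.kind ≠ .letter i) →
    Calc.Le (cj (M.f (eW F e)) (fb M e.1.tgt false .gOne)) (fb M .guess false .kSet)
  kLet : ∀ i, Calc.Le (cj (M.f (eW F ⟨letterE i, letterE_ok i⟩ * (tL F i)⁻¹))
    (fb M .guess false .kSet)) (fb M .guess false .kSet)
  gKeep : ∀ o, oL F o ∈ keeps M (fb M .guess false .gOne)
  kKeep : ∀ o, oL F o ∈ keeps M (fb M .guess false .kSet)
  certDisj : ∀ f g, Frame.Good M (phi M) f → Frame.Good M (phi M) g →
    Calc.Le f (fb M .guess false .gOne) → Calc.Le f (setFld M (certSet false false)) →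
    Calc.Le g (fb M .guess false .kSet) → Calc.Le g (setFld M (certSet false false)) →
    Calc.Disj f g
  dG : ∀ s, Calc.Le (cj (M.f (pW F .omD s)) (fb M s false .gOne)) (fb M .fin false .gHOne)
  kG : Calc.Le (cj (M.f (pW F .omK .guess)) (fb M .guess false .kSet)) (fb M .fin false .gHOne)
  kSlide : ∀ i, tL F i ∈ slides M (fb M .guess false .full) (pW F .omK .guess)
  gEmpty : ∀ s, fb M s true .gOne = 1
  kEmpty : ∀ s b, s ≠ .guess ∨ b = true → fb M s b .kSet = 1

variable (hG : Good d) (hF : IsCore F)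
include hG hF

theorem ev_disjRules : F.Ev fun M => DisjRules M := by
  have := finite_oEdge (d := d)
  have := finite_og (d := d)
  have := finite_state (d := d)
  have hB := fun B => hasSet_base (F := F) hF (B := B)
  have h1 : ∀ e : OEdge d, F.Ev fun M => e.1.src = .guess → (∀ i, e.1.kind ≠ .letter i) →
      Calc.Le (cj (M.f (eW F e)) (fb M e.1.tgt false .gOne)) (fb M .guess false .kSet) := by
    intro e
    by_cases h : e.1.src = .guess ∧ ∀ i, e.1.kind ≠ .letter i
    · obtain ⟨τ, hτ, ha⟩ := exists_eW hG hF e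
      refine (ev_carry hτ (hB ⟨e.1.tgt, false, .gOne⟩) (hB ⟨.guess, false, .kSet⟩) ?_).mono
        fun M a _ _ => a
      rintro ⟨st, σ, b, w, g, k⟩ ⟨⟨hs, hb⟩, -, hg⟩
      cases (show st = _ from hs)
      cases (show b = _ from hb)
      obtain rfl : g = 1 := hg
      rw [ha]
      obtain ⟨⟨src, tgt, p, q, kind⟩, he⟩ := e
      obtain ⟨h, hk⟩ := h
      simp only at h hk
      subst h
      have : guessVal d (Path.cons _ he σ) = 1 := by
        cases kind <;> first | rfl | exact absurd rfl (hk _)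
      exact ⟨⟨rfl, rfl⟩, rfl, rfl, by simp [this]⟩
    · exact Frame.Ev.of_forall fun M a b => absurd ⟨a, b⟩ h
  have h2 : ∀ i, F.Ev fun M => Calc.Le (cj (M.f (eW F ⟨letterE i, letterE_ok i⟩ * (tL F i)⁻¹))
      (fb M .guess false .kSet)) (fb M .guess false .kSet) := by
    intro i
    obtain ⟨τ, hτ, ha⟩ := exists_eW hG hF ⟨letterE i, letterE_ok i⟩
    refine ev_carry (hτ.mul (isDiag_tL hF i).inv) (hB _) (hB ⟨.guess, false, .kSet⟩) ?_
    rintro ⟨st, σ, b, w, g, k⟩ ⟨⟨hs, hb⟩, -, -, hk⟩
    cases (show st = _ from hs)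
    cases (show b = _ from hb)
    rw [Equiv.Perm.mul_apply, inv_inv]
    erw [ha σ false w (g * (d.gen i)⁻¹) k]
    refine ⟨⟨rfl, rfl⟩, rfl, rfl, ?_⟩
    simp only [guessVal, letterE]
    rw [mul_assoc, ← mul_assoc (guessVal d σ), show guessVal d σ * g = 1 from hk, one_mul,
      mul_inv_cancel]
  have h3 : ∀ o p, (p = (.gOne : Pred d) ∨ p = .kSet) →
      F.Ev fun M => oL F o ∈ keeps M (fb M .guess false p) := by
    intro o p hp
    refine (ev_moves (isDiag_oL hF o)).and (ev_keep (isDiag_oL hF o)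
      (hB ⟨.guess, false, p⟩) fun x => ?_)
    rcases hp with rfl | rfl <;> rw [oL_apply] <;> exact Iff.rfl
  have h4 : ∀ s, F.Ev fun M =>
      Calc.Le (cj (M.f (pW F .omD s)) (fb M s false .gOne)) (fb M .fin false .gHOne) := by
    intro s
    obtain ⟨τ, hτ, hc⟩ := exists_pW hG hF .omD s
    refine ev_carry hτ (hB _) (hB ⟨.fin, false, .gHOne⟩) ?_
    rintro ⟨st, σ, b, w, g, k⟩ ⟨⟨hs, hb⟩, -, hg⟩
    cases (show st = _ from hs)
    cases (show b = _ from hb)
    rw [hc _ rfl _ ⟨s, σ, w, g, k, rfl, rfl⟩]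
    exact ⟨⟨rfl, rfl⟩, ⟨rfl, hg⟩, rfl⟩
  have h5 : F.Ev fun M =>
      Calc.Le (cj (M.f (pW F .omK .guess)) (fb M .guess false .kSet)) (fb M .fin false .gHOne) ∧
      ∀ i, tL F i ∈ slides M (fb M .guess false .full) (pW F .omK .guess) := by
    obtain ⟨τ, hτ, hc⟩ := exists_pW hG hF .omK .guess
    have ac : ∀ σ c g h, τ (⟨.guess, σ, false, c, g, h⟩ : Point d) =
        ⟨.fin, .nil, false, .omK σ c h, guessVal d σ * g, 1⟩ :=
      fun σ c g h => hc _ rfl _ ⟨σ, c, g, h, rfl, rfl⟩
    refine ((ev_carry hτ (hB ⟨.guess, false, .kSet⟩) (hB ⟨.fin, false, .gHOne⟩) ?_).and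
      (Frame.Ev.all fun i => ((ev_moves (isDiag_tL hF i)).and (ev_keep (isDiag_tL hF i)
        (hB ⟨.guess, false, .full⟩) fun x => by rw [tL_apply]; exact Iff.rfl)).and
        (ev_same (hτ.mul (isDiag_tL hF i)) ((isDiag_tL hF i).mul hτ)
          (hB ⟨.guess, false, .full⟩) ?_))).mono
      fun M ⟨a, b⟩ => ⟨a, fun i => slides_mk (b i).1.1 (b i).1.2 (b i).2⟩
    all_goals
      rintro ⟨st, σ, b', w, g, k⟩ ⟨⟨hs, hb⟩, hp⟩
      cases (show st = _ from hs)
      cases (show b' = _ from hb)
    · rw [ac]; exact ⟨⟨rfl, rfl⟩, ⟨rfl, hp.2.2⟩, rfl⟩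
    · simp only [Equiv.Perm.mul_apply, tL_apply, ac, mul_assoc]
  have empty : ∀ (s : State d) b (p : Pred d), Base.set ⟨s, b, p⟩ = ∅ →
      F.Ev fun M => fb M s b p = 1 := fun s b p h => ev_empty.mono fun M e => by
    show setFld M _ = 1
    rw [h, e]
  have h6 : ∀ s, F.Ev fun M => fb M s true .gOne = 1 := fun s =>
    empty s true .gOne (Set.eq_empty_iff_forall_notMem.2 fun x hx => by
      have := hx.1.2.symm.trans hx.2.1
      exact Bool.false_ne_true this.symm)
  have h7 : ∀ (s : State d) b, F.Ev fun M =>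
      (s ≠ .guess ∨ b = true) → fb M s b .kSet = 1 := by
    intro s b
    by_cases h : s ≠ .guess ∨ b = true
    · refine (empty s b .kSet (Set.eq_empty_iff_forall_notMem.2 fun x hx => ?_)).mono
        fun M e _ => e
      rcases h with h | h
      · exact h ((show x.st = s from hx.1.1).symm.trans hx.2.2.1)
      · exact Bool.false_ne_true (hx.2.1.symm.trans ((show x.tag = b from hx.1.2).trans h))
    · exact Frame.Ev.of_forall fun M a => absurd a h
  have hA := (hB ⟨.guess, false, .gOne⟩).inter (hasSet_certSet hF false false)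
  have hK := (hB ⟨.guess, false, .kSet⟩).inter (hasSet_certSet hF false false)
  refine ((((Frame.Ev.all h1).and (Frame.Ev.all h2)).and
    ((Frame.Ev.all fun o => h3 o .gOne (Or.inl rfl)).and
      (Frame.Ev.all fun o => h3 o .kSet (Or.inr rfl)))).and
    ((((ev_meet (hB ⟨.guess, false, .gOne⟩) (hasSet_certSet hF false false)).and
      (ev_meet (hB ⟨.guess, false, .kSet⟩) (hasSet_certSet hF false false))).and
      ((ev_disj_fld hA hK ?_).and (ev_setFld hK))).and
    (((Frame.Ev.all h4).and h5).and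
      ((Frame.Ev.all h6).and (Frame.Ev.all fun q : State d × Bool => h7 q.1 q.2))))).mono ?_
  · refine Set.disjoint_left.2 fun x hx hx' => ?_
    have : x ∈ (gOneS ∩ kOneS ∩ certS false : Set (Point d)) :=
      ⟨⟨hx.1.2, hx'.1.2⟩, (certSet_subset hx.2).1⟩
    rwa [rule2_one hG] at this
  rintro M ⟨⟨⟨a1, a2⟩, a3, a4⟩, ⟨⟨b1, b2⟩, b3, -, -, -, b4⟩, ⟨a5, a6, a7⟩, a8, a9⟩
  exact ⟨a1, a2, a3, a4,
    fun f g hf hg f1 f2 g1 g2 => disj_of_le hf hg b4 (b1 f hf f1 f2) (b2 g hg g1 g2) b3,
    a5, a6, a7, a8, fun s b => a9 (s, b)⟩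

omit hG hF

variable {M : F.Model} (B : Basic M) (E : Edges M) (C : Certs M) (D : DisjRules M)
include B E C D

theorem le_finHOne (T : List (Fin d.n)) :
    Calc.Le (cj (M.f (tW F T)⁻¹) (fb M .fin false .gHOne)) (fb M .fin false .hOne) := by
  have h := le_cj (M.f (tW F T)⁻¹) E.finH
  rwa [(inv_mem (tW_mem (E.keepT .fin false) T)).2] at h

/-- Along a path from the guess state a translate of the trivial element reaches the trivial
guessed product. -/
theorem path_kSet : ∀ {s : State d} (σ : Path d s), s = .guess →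
    Calc.Le (cj (M.f (pathW F σ)) (cj (M.f (tW F (letters σ))⁻¹) (fb M .fin false .gHOne)))
      (fb M .guess false .kSet) := by
  intro s σ
  induction σ with
  | nil => intro h; cases h
  | cons e he σ ih =>
    intro hs
    by_cases hl : ∃ i, e.kind = .letter i
    · obtain ⟨i, hi⟩ := hl
      obtain rfl := edge_letter_eq he hi
      rw [pathW, show letters (Path.cons (letterE i) he σ) = i :: letters σ from rfl, tW,
        mul_inv_rev, cj_cj, cj_cj]
      obtain ⟨g, hg⟩ : ∃ g, g = cj (M.f (tW F (letters σ))⁻¹) (fb M .fin false .gHOne) :=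
        ⟨_, rfl⟩
      have good : Frame.Good M (phi M) g := hg ▸ good_move (inv_mem (B.mTW _)) (B.good _)
      rw [← hg] at ih ⊢
      have hle : Calc.Le g (fb M .fin false .hOne) := hg ▸ le_finHOne B E C D _
      have hx := (Same.down good hle (inv_mem (path_slide B E false i σ)).2).cj_eq
      rw [cj_cj, cj_cj] at hx
      rw [hx, ← cj_cj]
      refine le_trans (good_move (mul_mem (B.mE _) (inv_mem (B.mT i))) (good_path B E σ good))
        (good_move (mul_mem (B.mE _) (inv_mem (B.mT i))) (B.good _)) (B.good _)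
        (le_cj _ (ih rfl)) (D.kLet i)
    · push Not at hl
      have hn : letters (Path.cons e he σ) = [] := by
        rcases hk : e.kind with i | _ | _
        · exact absurd hk (hl i)
        all_goals simp [letters, hk]
      rw [hn, tW, inv_one, map_one, cj_one, pathW, cj_cj]
      exact le_trans (good_move (B.mE _) (good_path B E σ (B.good _)))
        (good_move (B.mE _) (B.good _)) (B.good _) (le_cj _ (path_gOne B E σ))
        (D.kBase ⟨e, he⟩ hs hl)

/-- The translate of the trivial element by a nontrivial product is disjoint from it. -/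
theorem fin_disj (hG : Good d) {v : List (Fin d.n)} (hv : (v.map d.gen).prod ≠ 1) :
    Calc.Disj (fb M .fin false .gHOne) (cj (M.f (tW F v)⁻¹) (fb M .fin false .gHOne)) := by
  obtain ⟨σ, hc, ho, hl⟩ := exists_guess_path hG v false (iff_of_false hv (by simp))
  have h2 := path_kSet B E C D σ rfl
  rw [hl] at h2
  have hcert := path_cert B E C false false σ hc ho
  obtain ⟨y, hy⟩ : ∃ y, y = (rW F (spelled σ).1 (spelled σ).2)⁻¹ := ⟨_, rfl⟩
  rw [← hy] at hcert
  have hk : ∀ {S : Subgroup F.Free}, (∀ o, oL F o ∈ S) → y ∈ S := fun h =>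
    hy ▸ inv_mem (mul_mem (oHom_mem h _) (oHom_mem h _))
  have hm : y * pathW F σ ∈ moves M := mul_mem (hk B.mO) (path_moves B E σ)
  set G := fb M .fin false .gHOne
  set G' := cj (M.f (tW F v)⁻¹) G
  have gG : Frame.Good M (phi M) G := B.good _
  have gG' : Frame.Good M (phi M) G' := good_move (inv_mem (B.mTW v)) gG
  have toCert : ∀ f, Frame.Good M (phi M) f → Calc.Le f (fb M .fin false .hOne) →
      Calc.Le (cj (M.f (y * pathW F σ)) f) (setFld M (certSet false false)) := fun f hf h =>
    le_trans (good_move hm hf) (good_move hm (B.good _)) (C.good _ _) (le_cj _ h) hcert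
  have d1 : Calc.Le (cj (M.f (y * pathW F σ)) G) (fb M .guess false .gOne) := by
    rw [cj_cj, ← (hk D.gKeep).2]
    exact le_cj _ (path_gOne B E σ)
  have d2 : Calc.Le (cj (M.f (y * pathW F σ)) G') (fb M .guess false .kSet) := by
    rw [cj_cj, ← (hk D.kKeep).2]
    exact le_cj _ h2
  have h := D.certDisj _ _ (good_move hm gG) (good_move hm gG') d1 (toCert G gG E.finH) d2
    (toCert G' gG' (le_finHOne B E C D v))
  have h' := disj_cj (M.f (y * pathW F σ)⁻¹) h
  rwa [cj_inv_left, cj_inv_left] at h'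

/-- Disjointness pulls back along a move on whose domain translations commute with it. -/
theorem pull_disj (hG : Good d) {x : F.Free} (hx : x ∈ moves M)
    {D₀ X : Vgrp (Point d) →* M.P} (gD : Frame.Good M (phi M) D₀) (hX : Calc.Le D₀ X)
    (hle : Calc.Le (cj (M.f x) D₀) (fb M .fin false .gHOne))
    (hs : ∀ i, tL F i ∈ slides M X x) {v : List (Fin d.n)} (hv : (v.map d.gen).prod ≠ 1) :
    Calc.Disj (cj (M.f (tW F v)⁻¹) D₀) D₀ := by
  have hT : (tW F v)⁻¹ ∈ moves M := inv_mem (B.mTW v)
  have hc := (Same.down gD hX (inv_mem (tW_mem hs v)).2).cj_eq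
  rw [cj_cj, cj_cj] at hc
  have h1 := fin_disj B E C D hG hv
  have h2 : Calc.Disj (cj (M.f x) D₀) (cj (M.f x) (cj (M.f (tW F v)⁻¹) D₀)) := by
    rw [hc]
    exact disj_of_le (good_move hx gD) (good_move hT (good_move hx gD))
      (good_move hT (B.good _)) hle (le_cj _ hle) h1
  have h3 := disj_cj (M.f x⁻¹) h2
  rw [cj_inv_left, cj_inv_left] at h3
  exact fun a b => (h3 b a).symm

end Vale.Agent.P193.Core.Inst.Laws
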