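import Vale.Agent.P193.Full.Core.Inst.Laws.Cert

/-! The law of inner translations: lists of generators with equal products act alike everywhere.
On the final field the guessed value is read off along a clean path and is trivial at the
certificate; pushes spread this to all states. -/

namespace Vale.Agent.P193.Core.Inst.Laws

open Calc Facts Classical

set_option linter.unusedSectionVars false

variable {d : Data} [DecidableEq d.M.A] {F : Calc.Frame (Point d)}

/-- The rules of the guessed value and of the pushes. -/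
structure InnerRules {F : Calc.Frame (Point d)} (M : F.Model) : Prop where
  uEdge : ∀ e : OEdge d, e.1.src = .guess → (∀ i, e.1.kind ≠ .letter i) →
    Same M (fb M e.1.tgt true .full) (uW F * eW F e) (eW F e)
  uLetter : ∀ i, Same M (fb M .guess true .full) (uW F * eW F ⟨letterE i, letterE_ok i⟩)
    (eW F ⟨letterE i, letterE_ok i⟩ * uW F * tL F i)
  uOne : Same M (setFld M (certSet true true)) (uW F) 1
  uOuter : ∀ o, oL F o ∈ slides M (fb M .guess true .full) (uW F)
  cDom : ∀ s, Calc.Le (cj (M.f (pW F .omC s)) (fb M s true .full)) (fb M .fin true .hOne)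
  dDom : ∀ s, Calc.Le (cj (M.f (pW F .omD s)) (fb M s false .full)) (fb M .fin false .hOne)
  tDom : Calc.Le (cj (M.f (pW F .tMap .fin)) (fb M .fin false .hOne)) (fb M .fin true .hOne)
  cSlide : ∀ s i, tL F i ∈ slides M (fb M s true .full) (pW F .omC s)
  dSlide : ∀ s i, tL F i ∈ slides M (fb M s false .full) (pW F .omD s)
  tSlide : ∀ i, tL F i ∈ slides M (fb M .fin false .hOne) (pW F .tMap .fin)

variable (hG : Good d) (hF : IsCore F)
include hG hF

theorem ev_innerRules : F.Ev fun M => InnerRules M := by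
  have := finite_oEdge (d := d)
  have := finite_og (d := d)
  have := finite_state (d := d)
  have hB := fun B => hasSet_base (F := F) hF (B := B)
  obtain ⟨υ, hυ, hu⟩ := exists_uW hG hF
  have h1 : ∀ e : OEdge d, F.Ev fun M => e.1.src = .guess → (∀ i, e.1.kind ≠ .letter i) →
      Same M (fb M e.1.tgt true .full) (uW F * eW F e) (eW F e) := by
    intro e
    by_cases h : e.1.src = .guess ∧ ∀ i, e.1.kind ≠ .letter i
    · obtain ⟨τ, hτ, ha⟩ := exists_eW hG hF e
      refine (ev_same (hυ.mul hτ) hτ (hB ⟨e.1.tgt, true, .full⟩) ?_).mono fun M a _ _ => a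
      rintro ⟨st, σ, b, w, g, k⟩ ⟨⟨hs, hb⟩, -⟩
      cases (show st = _ from hs)
      cases (show b = _ from hb)
      rw [Equiv.Perm.mul_apply, ha]
      obtain ⟨⟨src, tgt, p, q, kind⟩, he⟩ := e
      obtain ⟨h, hk⟩ := h
      simp only at h hk
      subst h
      rw [hu]
      have : guessVal d (Path.cons _ he σ) = 1 := by
        cases kind <;> first | rfl | exact absurd rfl (hk _)
      rw [this, mul_one]
    · exact Frame.Ev.of_forall fun M a b => absurd ⟨a, b⟩ h
  have h2 : ∀ i, F.Ev fun M => Same M (fb M .guess true .full)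
      (uW F * eW F ⟨letterE i, letterE_ok i⟩)
      (eW F ⟨letterE i, letterE_ok i⟩ * uW F * tL F i) := by
    intro i
    obtain ⟨τ, hτ, ha⟩ := exists_eW hG hF ⟨letterE i, letterE_ok i⟩
    refine ev_same (hυ.mul hτ) ((hτ.mul hυ).mul (isDiag_tL hF i)) (hB ⟨.guess, true, .full⟩) ?_
    rintro ⟨st, σ, b, w, g, k⟩ ⟨⟨hs, hb⟩, -⟩
    cases (show st = _ from hs)
    cases (show b = _ from hb)
    simp only [Equiv.Perm.mul_apply, tL_apply]
    rw [hu σ w (g * d.gen i) k]
    erw [ha σ true w g k, ha σ true w _ k]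
    refine (hu _ _ _ _).trans ?_
    simp [guessVal, letterE, mul_assoc]
  have h3 : F.Ev fun M => Same M (setFld M (certSet true true)) (uW F) 1 := by
    refine ev_same hυ Frame.isDiag_one (hasSet_certSet hF true true) ?_
    intro x hx
    obtain ⟨hc, ht⟩ := certSet_subset hx
    have hone : guessVal d x.σ = 1 := (cert_guessVal hG hc).2 rfl
    obtain ⟨st, σ, b, w, g, k⟩ := x
    cases (show st = _ from hc.1.1.1)
    cases (show b = _ from ht)
    rw [hu, show guessVal d σ = 1 from hone, mul_one]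
    rfl
  have h4 : ∀ o, F.Ev fun M => oL F o ∈ slides M (fb M .guess true .full) (uW F) := by
    intro o
    refine (((ev_moves (isDiag_oL hF o)).and (ev_keep (isDiag_oL hF o)
      (hB ⟨.guess, true, .full⟩) fun x => ?_)).and (ev_same (hυ.mul (isDiag_oL hF o))
      ((isDiag_oL hF o).mul hυ) (hB ⟨.guess, true, .full⟩) ?_)).mono
      fun M ⟨⟨a, b⟩, c⟩ => slides_mk a b c
    · rw [oL_apply]; exact Iff.rfl
    · rintro ⟨st, σ, b', w, g, k⟩ ⟨⟨hs, hb⟩, -⟩
      cases (show st = _ from hs)
      cases (show b' = _ from hb)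
      simp only [Equiv.Perm.mul_apply, oL_apply, hu]
  have h5 : ∀ s, F.Ev fun M =>
      (Calc.Le (cj (M.f (pW F .omC s)) (fb M s true .full)) (fb M .fin true .hOne) ∧
        Calc.Le (cj (M.f (pW F .omD s)) (fb M s false .full)) (fb M .fin false .hOne)) ∧
      ∀ i, tL F i ∈ slides M (fb M s true .full) (pW F .omC s) ∧
        tL F i ∈ slides M (fb M s false .full) (pW F .omD s) := by
    intro s
    obtain ⟨τ, hτ, hc⟩ := exists_pW hG hF .omC s
    obtain ⟨π, hπ, hd⟩ := exists_pW hG hF .omD s
    have ac : ∀ σ c g h, τ (⟨s, σ, true, c, g, h⟩ : Point d) =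
        ⟨.fin, .nil, true, .omC σ c h, g, 1⟩ :=
      fun σ c g h => hc _ rfl _ ⟨s, σ, c, g, h, rfl, rfl⟩
    have ad : ∀ σ c g h, π (⟨s, σ, false, c, g, h⟩ : Point d) =
        ⟨.fin, .nil, false, .omD σ c h, g, 1⟩ :=
      fun σ c g h => hd _ rfl _ ⟨s, σ, c, g, h, rfl, rfl⟩
    refine ((((ev_carry hτ (hB ⟨s, true, .full⟩) (hB ⟨.fin, true, .hOne⟩) ?_).and
      (ev_carry hπ (hB ⟨s, false, .full⟩) (hB ⟨.fin, false, .hOne⟩) ?_))).and
      (Frame.Ev.all fun i => (ev_moves (isDiag_tL hF i)).and
      (((ev_keep (isDiag_tL hF i) (hB ⟨s, true, .full⟩)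
          fun x => by rw [tL_apply]; exact Iff.rfl).and
        (ev_same (hτ.mul (isDiag_tL hF i)) ((isDiag_tL hF i).mul hτ)
          (hB ⟨s, true, .full⟩) ?_)).and
      ((ev_keep (isDiag_tL hF i) (hB ⟨s, false, .full⟩)
          fun x => by rw [tL_apply]; exact Iff.rfl).and
        (ev_same (hπ.mul (isDiag_tL hF i)) ((isDiag_tL hF i).mul hπ)
          (hB ⟨s, false, .full⟩) ?_))))).mono
      fun M ⟨a, b⟩ => ⟨a, fun i => ⟨slides_mk (b i).1 (b i).2.1.1 (b i).2.1.2,
        slides_mk (b i).1 (b i).2.2.1 (b i).2.2.2⟩⟩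
    all_goals
      rintro ⟨st, σ, b', w, g, k⟩ ⟨⟨hs, hb⟩, -⟩
      cases (show st = _ from hs)
      cases (show b' = _ from hb)
    · rw [ac]; exact ⟨⟨rfl, rfl⟩, rfl⟩
    · rw [ad]; exact ⟨⟨rfl, rfl⟩, rfl⟩
    · simp only [Equiv.Perm.mul_apply, tL_apply, ac]
    · simp only [Equiv.Perm.mul_apply, tL_apply, ad]
  have h6 : F.Ev fun M =>
      Calc.Le (cj (M.f (pW F .tMap .fin)) (fb M .fin false .hOne)) (fb M .fin true .hOne) ∧
      ∀ i, tL F i ∈ slides M (fb M .fin false .hOne) (pW F .tMap .fin) := by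
    obtain ⟨τ, hτ, hc⟩ := exists_pW hG hF .tMap .fin
    have ac : ∀ c g, τ (⟨.fin, .nil, false, c, g, 1⟩ : Point d) =
        ⟨.fin, .nil, true, .tpush c, g, 1⟩ := fun c g => hc _ rfl _ ⟨c, g, rfl, rfl⟩
    refine ((ev_carry hτ (hB ⟨.fin, false, .hOne⟩) (hB ⟨.fin, true, .hOne⟩) ?_).and
      (Frame.Ev.all fun i => ((ev_moves (isDiag_tL hF i)).and (ev_keep (isDiag_tL hF i)
        (hB ⟨.fin, false, .hOne⟩) fun x => by rw [tL_apply]; exact Iff.rfl)).and
        (ev_same (hτ.mul (isDiag_tL hF i)) ((isDiag_tL hF i).mul hτ)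
          (hB ⟨.fin, false, .hOne⟩) ?_))).mono
      fun M ⟨a, b⟩ => ⟨a, fun i => slides_mk (b i).1.1 (b i).1.2 (b i).2⟩
    all_goals
      rintro ⟨st, σ, b', w, g, k⟩ ⟨⟨hs, hb⟩, hk⟩
      cases (show st = _ from hs)
      cases (show b' = _ from hb)
      obtain rfl := path_fin σ
      obtain rfl : k = 1 := hk
    · rw [ac]; exact ⟨⟨rfl, rfl⟩, rfl⟩
    · simp only [Equiv.Perm.mul_apply, tL_apply, ac]
  refine ((((Frame.Ev.all h1).and (Frame.Ev.all h2)).and (h3.and (Frame.Ev.all h4))).and
    ((Frame.Ev.all h5).and h6)).mono ?_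
  rintro M ⟨⟨⟨a1, a2⟩, a3, a4⟩, a5, a6, a7⟩
  exact ⟨a1, a2, a3, a4, fun s => (a5 s).1.1, fun s => (a5 s).1.2, a6,
    fun s i => ((a5 s).2 i).1, fun s i => ((a5 s).2 i).2, a7⟩

omit hG hF

variable {M : F.Model}

/-- A law pulls back along a move on whose domain it commutes with it. -/
theorem Same.pull {X Y : Vgrp (Point d) →* M.P} {x T : F.Free} (hx : x ∈ moves M)
    (hX : Frame.Good M (phi M) X) (hle : Calc.Le (cj (M.f x) X) Y) (h : Same M Y T 1)
    (hT : T ∈ slides M X x) : Same M X T 1 := by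
  have h1 := Same.right hx (Same.down (good_move hx hX) hle h)
  have h2 := (hT.2.trans h1).left x⁻¹
  rwa [one_mul, inv_mul_cancel, inv_mul_cancel_left] at h2

variable (B : Basic M) (E : Edges M) (C : Certs M) (R : InnerRules M)
include B E C R

/-- Along a path from the guess state the guessed value acts as the guessed list. -/
theorem path_value : ∀ {s : State d} (σ : Path d s), s = .guess →
    Same M (fb M .fin true .hOne) (uW F * pathW F σ) (pathW F σ * tW F (letters σ)) := by
  intro s σ
  induction σ with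
  | nil => intro h; cases h
  | cons e he σ ih =>
    intro hs
    have hdown := fun {x y : F.Free} (h : Same M (fb M e.tgt true .full) x y) =>
      Same.right (path_moves B E σ) (Same.down (good_path B E σ (B.good _)) (path_full B E true σ) h)
    by_cases hl : ∃ i, e.kind = .letter i
    · obtain ⟨i, hi⟩ := hl
      obtain rfl := edge_letter_eq he hi
      have h1 := hdown (R.uLetter i)
      have h2 := ((path_slide B E true i σ).2.symm).left (eW F ⟨_, he⟩ * uW F)
      have h3 := (Same.right (B.mT i) ((E.keepT .fin true i).2.symm ▸ ih rfl)).left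
        (eW F ⟨_, he⟩)
      rw [pathW, show letters (Path.cons (letterE i) he σ) = i :: letters σ from rfl, tW]
      simp only [mul_assoc] at h1 h2 h3 ⊢
      exact h1.trans (h2.trans h3)
    · push Not at hl
      have h1 := hdown (R.uEdge ⟨e, he⟩ hs hl)
      have hn : letters (Path.cons e he σ) = [] := by
        rcases hk : e.kind with i | _ | _
        · exact absurd hk (hl i)
        all_goals simp [letters, hk]
      rw [hn, tW, mul_one, pathW, ← mul_assoc]
      exact h1

theorem law_finC (hG : Good d) {v : List (Fin d.n)} (hv : (v.map d.gen).prod = 1) :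
    Same M (fb M .fin true .hOne) (tW F v) 1 := by
  obtain ⟨σ, hc, ho, hl⟩ := exists_guess_path hG v true (iff_of_true hv rfl)
  have h := path_value B E C R σ rfl
  rw [hl] at h
  have hP := path_moves B E σ
  obtain ⟨y, hy⟩ : ∃ y, y = (rW F (spelled σ).1 (spelled σ).2)⁻¹ := ⟨_, rfl⟩
  have hs : y ∈ slides M (fb M .guess true .full) (uW F) :=
    hy ▸ inv_mem (mul_mem (oHom_mem R.uOuter _) (oHom_mem R.uOuter _))
  have hcert := path_cert B E C true true σ hc ho
  rw [← hy] at hcert
  have hyP : y * pathW F σ ∈ moves M := mul_mem hs.1.1 hP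
  have a1 := Same.right hP (Same.down (good_path B E σ (B.good _)) (path_full B E true σ) hs.2)
  have a2 := Same.right hyP (Same.down (good_move hyP (B.good _)) hcert R.uOne)
  simp only [mul_assoc, one_mul] at a1 a2
  have a3 := (a1.symm.trans a2).left y⁻¹
  simp only [inv_mul_cancel_left] at a3
  have a4 := (h.symm.trans a3).left (pathW F σ)⁻¹
  simpa only [inv_mul_cancel_left, inv_mul_cancel] using a4

/-- A list with trivial product acts as the identity everywhere. -/
theorem law_one (hG : Good d) {v : List (Fin d.n)} (hv : (v.map d.gen).prod = 1) :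
    Same M (phi M) (tW F v) 1 := by
  have hC := law_finC B E C R hG hv
  have hD : Same M (fb M .fin false .hOne) (tW F v) 1 :=
    Same.pull (B.mP _ _) (B.good _) R.tDom hC (tW_mem R.tSlide v)
  refine B.everywhere _ _ (by rw [mul_one]; exact inv_mem (B.mTW v)) fun s b => ?_
  cases b with
  | true => exact Same.pull (B.mP _ _) (B.good _) (R.cDom s) hC (tW_mem (R.cSlide s) v)
  | false => exact Same.pull (B.mP _ _) (B.good _) (R.dDom s) hD (tW_mem (R.dSlide s) v)

omit E C R in
/-- Inverses of words acting alike everywhere act alike everywhere. -/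
theorem same_inv {x y : F.Free} (hx : x ∈ moves M)
    (h : Same M (phi M) x y) : Same M (phi M) x⁻¹ y⁻¹ := by
  have h1 := Same.right (inv_mem hx) ((cj_phi (inv_mem hx)).symm ▸ h)
  have h2 := h1.left y⁻¹
  rw [mul_inv_cancel, mul_one, inv_mul_cancel_left] at h2
  exact h2.symm

/-- Lists with equal products act alike everywhere. -/
theorem inner_congr (hG : Good d) {l l' : List (Fin d.n)}
    (h : (l.map d.gen).prod = (l'.map d.gen).prod) : Same M (phi M) (tW F l) (tW F l') := by
  obtain ⟨r, hr⟩ := hG.gen_surj ((l.map d.gen).prod)⁻¹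
  have h1 := law_one B E C R hG (v := l ++ r) (by simp [hr])
  have h2 := law_one B E C R hG (v := l' ++ r) (by simp [hr, h])
  rw [tW_append] at h1 h2
  have h3 := (h1.trans h2.symm).left (tW F r)⁻¹
  rwa [inv_mul_cancel_left, inv_mul_cancel_left] at h3

end Vale.Agent.P193.Core.Inst.Laws
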