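import Vale.Agent.P193.Full.Core.Inst.Laws.Inner

/-! The law of outer translations: pushing under a theta constructor turns them into inner
translations, injectively. -/

namespace Vale.Agent.P193.Core.Inst.Laws

open Calc Facts Classical

set_option linter.unusedSectionVars false

variable {d : Data} [DecidableEq d.M.A]

/-- A list of inner generators for an outer generator. -/
noncomputable def oList (o : OG d) : List (Fin d.n) :=
  if h : ∃ l : List (Fin d.n), (l.map d.gen).prod = toInner d (oval o) then h.choose else []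

theorem prod_oList (hG : Good d) (o : OG d) :
    ((oList o).map d.gen).prod = toInner d (oval o) := by
  have h : ∃ l : List (Fin d.n), (l.map d.gen).prod = toInner d (oval o) := hG.gen_surj _
  rw [oList, dif_pos h]
  exact h.choose_spec

variable (F : Calc.Frame (Point d))

/-- Inner words in place of words in the outer generators. -/
noncomputable def iHom : FreeGroup (OG d) →* F.Free :=
  FreeGroup.lift fun o => (tW F (oList o))⁻¹

variable {F}

/-- The rules of theta. -/
structure OuterRules {F : Calc.Frame (Point d)} (M : F.Model) : Prop where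
  thLe : ∀ s b, Calc.Le (cj (M.f (pW F .theta s)) (fb M s b .hOne)) (fb M .fin false .gHOne)
  oKeep : ∀ s b o, oL F o ∈ keeps M (fb M s b .full)
  thComm : ∀ s b o, Same M (fb M s b .full) (pW F .theta s * oL F o)
    (tW F (oList o) * pW F .theta s)

theorem tW_eval (hF : IsCore F) : ∀ l, F.IsDiag (tW F l) (inPerm ((l.map d.gen).prod))⁻¹
  | [] => by simpa [tW] using Frame.isDiag_one (F := F)
  | i :: l => by
    have h := (tW_eval hF l).mul (isDiag_tL hF i)
    rwa [← mul_inv_rev, ← map_mul, ← List.prod_cons] at h

variable (hG : Good d) (hF : IsCore F)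
include hG hF

theorem ev_outerRules : F.Ev fun M => OuterRules M := by
  have := finite_og (d := d)
  have := finite_state (d := d)
  have hB := fun B => hasSet_base (F := F) hF (B := B)
  have h1 : ∀ s b, F.Ev fun M =>
      Calc.Le (cj (M.f (pW F .theta s)) (fb M s b .hOne)) (fb M .fin false .gHOne) ∧
      ∀ o, oL F o ∈ keeps M (fb M s b .full) ∧ Same M (fb M s b .full) (pW F .theta s * oL F o)
        (tW F (oList o) * pW F .theta s) := by
    intro s b
    obtain ⟨τ, hτ, hc⟩ := exists_pW hG hF .theta s
    have ac : ∀ σ w g h, τ (⟨s, σ, b, w, g, h⟩ : Point d) =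
        ⟨.fin, .nil, false, .theta σ b w g, toInner d h, 1⟩ :=
      fun σ w g h => hc _ rfl _ rfl
    refine ((ev_carry hτ (hB ⟨s, b, .hOne⟩) (hB ⟨.fin, false, .gHOne⟩) ?_).and
      (Frame.Ev.all fun o => ((ev_moves (isDiag_oL hF o)).and (ev_keep (isDiag_oL hF o)
        (hB ⟨s, b, .full⟩) fun x => by rw [oL_apply]; exact Iff.rfl)).and
        (ev_same (hτ.mul (isDiag_oL hF o)) ((tW_eval hF (oList o)).mul hτ)
          (hB ⟨s, b, .full⟩) ?_))).mono fun M ⟨a, c⟩ => ⟨a, fun o => c o⟩
    all_goals
      rintro ⟨st, σ, b', w, g, k⟩ ⟨⟨hs, hb⟩, hk⟩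
      cases (show st = _ from hs)
      cases (show b' = _ from hb)
    · obtain rfl : k = 1 := hk
      rw [ac]
      exact ⟨⟨rfl, rfl⟩, ⟨rfl, map_one _⟩, rfl⟩
    · simp only [Equiv.Perm.mul_apply, oL_apply, ac]
      show _ = ({ st := .fin, σ := .nil, tag := false, w := _, g := _ * _, h := 1 } : Point d)
      rw [prod_oList hG, map_mul]
  refine (Frame.Ev.all fun q : State d × Bool => h1 q.1 q.2).mono fun M h => ?_
  exact ⟨fun s b => (h (s, b)).1, fun s b o => ((h (s, b)).2 o).1,
    fun s b o => ((h (s, b)).2 o).2⟩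

omit hF hG

variable {M : F.Model} (B : Basic M) (E : Edges M) (C : Certs M) (R : InnerRules M)
  (T : OuterRules M)
include B E C R T

/-- Theta turns outer words into inner words. -/
theorem theta_comm (s : State d) (b : Bool) (u : FreeGroup (OG d)) :
    Same M (fb M s b .full) (pW F .theta s * oHom F u) (iHom F u * pW F .theta s) := by
  set θ := pW F .theta s
  have key : ∀ {a c : F.Free}, a ∈ keeps M (fb M s b .full) →
      Same M (fb M s b .full) (θ * a) (c * θ) →
      Same M (fb M s b .full) (θ * a⁻¹) (c⁻¹ * θ) := by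
    intro a c ha h
    have h1 := (Same.right (inv_mem ha.1) ((inv_mem ha).2.symm ▸ h)).left c⁻¹
    simp only [mul_assoc, mul_inv_cancel, mul_one, inv_mul_cancel_left] at h1
    exact h1.symm
  induction u using FreeGroup.induction_on with
  | C1 => rw [map_one, map_one, mul_one, one_mul]; exact Same.refl _ _
  | of o =>
    rw [oHom_of, iHom, FreeGroup.lift_apply_of]
    exact key (T.oKeep s b o) (T.thComm s b o)
  | inv_of o h =>
    rw [map_inv, map_inv]
    exact key (oHom_mem (T.oKeep s b) _) h
  | mul a c ha hc =>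
    have hk := oHom_mem (T.oKeep s b) c
    have h1 := Same.right hk.1 (hk.2.symm ▸ ha)
    have h2 := hc.left (iHom F a)
    simp only [← mul_assoc] at h1 h2
    rw [map_mul, map_mul, ← mul_assoc]
    exact h1.trans h2

/-- The inner word of an outer word acts as a list with the product of its value. -/
theorem iHom_congr (hG : Good d) (u : FreeGroup (OG d)) :
    ∃ l : List (Fin d.n), (l.map d.gen).prod = toInner d (FreeGroup.lift oval u) ∧
      iHom F u ∈ moves M ∧ Same M (phi M) (iHom F u) (tW F l)⁻¹ := by
  induction u using FreeGroup.induction_on with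
  | C1 => exact ⟨[], by simp, by rw [map_one]; exact one_mem _,
      by rw [map_one, tW, inv_one]; exact Same.refl _ _⟩
  | of o => exact ⟨oList o, by rw [prod_oList hG, FreeGroup.lift_apply_of],
      by rw [iHom, FreeGroup.lift_apply_of]; exact inv_mem (B.mTW _),
      by rw [iHom, FreeGroup.lift_apply_of]; exact Same.refl _ _⟩
  | inv_of o h =>
    obtain ⟨l, hl, hm, hs⟩ := h
    obtain ⟨r, hr⟩ := hG.gen_surj ((l.map d.gen).prod)⁻¹
    refine ⟨r, by rw [map_inv, map_inv, ← hl, hr], by rw [map_inv]; exact inv_mem hm, ?_⟩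
    rw [map_inv]
    have h1 := same_inv B hm hs
    rw [inv_inv] at h1
    have h2 := law_one B E C R hG (v := r ++ l) (by simp [hr])
    rw [tW_append] at h2
    have h3 := Same.right (inv_mem (B.mTW r)) ((cj_phi (inv_mem (B.mTW r))).symm ▸ h2)
    rw [mul_inv_cancel_right, one_mul] at h3
    exact h1.trans h3
  | mul a c ha hc =>
    obtain ⟨l, hl, hm, hs⟩ := ha
    obtain ⟨l', hl', hm', hs'⟩ := hc
    refine ⟨l ++ l', by simp [hl, hl'], by rw [map_mul]; exact mul_mem hm hm', ?_⟩
    rw [map_mul, tW_append, mul_inv_rev]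
    exact (Same.right hm' ((cj_phi hm').symm ▸ hs)).trans (hs'.left _)

/-- Outer words with trivial value act as the identity everywhere. -/
theorem outer_one (hG : Good d) {u : FreeGroup (OG d)} (hu : FreeGroup.lift oval u = 1) :
    Same M (phi M) (oHom F u) 1 := by
  obtain ⟨l, hl, -, hs⟩ := iHom_congr B E C R T hG u
  have h1 : Same M (phi M) (iHom F u) 1 := by
    have := same_inv B (B.mTW l) (law_one B E C R hG (v := l) (by rw [hl, hu, map_one]))
    rw [inv_one] at this
    exact hs.trans this
  refine B.everywhere _ _ (by rw [mul_one]; exact inv_mem (B.mOH u)) fun s b => ?_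
  have hg := good_move (B.mP .theta s) (B.good ⟨s, b, .full⟩)
  have h2 := Same.right (B.mP .theta s) (Same.down hg hg.le h1)
  have h3 := ((theta_comm B E C R T s b u).trans h2).left (pW F .theta s)⁻¹
  rwa [one_mul, inv_mul_cancel_left, inv_mul_cancel] at h3

/-- Outer words with equal values act alike everywhere. -/
theorem outer_congr (hG : Good d) {u u' : FreeGroup (OG d)}
    (h : FreeGroup.lift oval u = FreeGroup.lift oval u') :
    Same M (phi M) (oHom F u) (oHom F u') := by
  have h1 := (outer_one B E C R T hG (u := u⁻¹ * u') (by simp [h])).symm.left (oHom F u)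
  rwa [map_mul, map_inv, mul_one, mul_inv_cancel_left] at h1

end Vale.Agent.P193.Core.Inst.Laws
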