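import Vale.Agent.P193.Full.Core.Inst.Laws.Units

/-! The word of a path carries the final field into the fields seen along the path. -/

namespace Vale.Agent.P193.Core.Inst.Laws

open Calc Facts Classical

set_option linter.unusedSectionVars false

variable {d : Data} [DecidableEq d.M.A]

/-- The accumulated spelled and erased words of a path. -/
def spelled : {s : State d} → Path d s → FA d × FA d
  | _, .nil => (1, 1)
  | _, .cons e _ σ => (e.pval * (spelled σ).1, e.qval * (spelled σ).2)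

theorem offset_eq : ∀ {s : State d} (σ : Path d s),
    offset d σ = (spelled σ).1 * (spelled σ).2⁻¹
  | _, .nil => by simp [spelled, offset]
  | _, .cons e _ σ => by simp only [spelled, offset, offset_eq σ]; group

/-- The guessed letters of a path. -/
def letters : {s : State d} → Path d s → List (Fin d.n)
  | _, .nil => []
  | _, .cons e _ σ =>
    match e.kind with
    | .letter i => i :: letters σ
    | _ => []

theorem prod_letters : ∀ {s : State d} (σ : Path d s),
    ((letters σ).map d.gen).prod = guessVal d σ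
  | _, .nil => rfl
  | _, .cons e _ σ => by
    rcases h : e.kind with i | _ | _ <;> simp [letters, guessVal, h, prod_letters σ]

/-- Letters of the second outer factor. -/
def up₁ : FA d →* FreeGroup (OG d) := FreeGroup.map fun a => .inr (.inl a)

/-- Letters of the third outer factor. -/
def up₂ : FA d →* FreeGroup (OG d) := FreeGroup.map fun a => .inr (.inr a)

theorem oval_up₁ (u : FA d) : FreeGroup.lift oval (up₁ u) = ((1, u, 1) : Outer d) := by
  have e : (FreeGroup.lift oval).comp up₁ =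
      ((MonoidHom.inr _ _).comp (MonoidHom.inl _ _) : FA d →* Outer d) :=
    FreeGroup.ext_hom _ _ fun a => by simp [up₁, oval]
  exact DFunLike.congr_fun e u

theorem oval_up₂ (u : FA d) : FreeGroup.lift oval (up₂ u) = ((1, 1, u) : Outer d) := by
  have e : (FreeGroup.lift oval).comp up₂ =
      ((MonoidHom.inr _ _).comp (MonoidHom.inr _ _) : FA d →* Outer d) :=
    FreeGroup.ext_hom _ _ fun a => by simp [up₂, oval]
  exact DFunLike.congr_fun e u

variable (F : Calc.Frame (Point d))

/-- The word of a path. -/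
noncomputable def pathW : {s : State d} → Path d s → F.Free
  | _, .nil => 1
  | _, .cons e he σ => eW F ⟨e, he⟩ * pathW σ

/-- The word moving a trivial outer coordinate to given second and third coordinates. -/
noncomputable def rW (p q : FA d) : F.Free := oHom F (up₁ p⁻¹) * oHom F (up₂ q⁻¹)

variable {F}

theorem isDiag_rW (hF : IsCore F) (p q : FA d) :
    F.IsDiag (rW F p q) (outPerm ((1, p, q) : Outer d)⁻¹) := by
  refine isDiag_of ?_
  rw [rW, map_mul, eval_oHom hF, eval_oHom hF, ← map_mul, ← map_mul, oval_up₁, oval_up₂]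
  congr 2
  simp

theorem rW_apply (p q : FA d) (x : Point d) :
    outPerm ((1, p, q) : Outer d)⁻¹ x = { x with h := x.h * (1, p, q) } := by
  show ({ x with h := x.h * ((1, p, q) : Outer d)⁻¹⁻¹ } : Point d) = _
  rw [inv_inv]

/-- The predicate seen on clean paths. -/
noncomputable def cP (s : State d) : Pred d := if s = .guess then .clean else .full

/-- The facts about single edges and translations. -/
structure Edges {F : Calc.Frame (Point d)} (M : F.Model) : Prop where
  full : ∀ (e : OEdge d) b, Calc.Le (cj (M.f (eW F e)) (fb M e.1.tgt b .full)) (fb M e.1.src b .full)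
  zOne : ∀ (e : OEdge d) b,
    Calc.Le (cj (M.f (eW F e)) (fb M e.1.tgt b .zOne)) (fb M e.1.src b .zOne)
  gOne : ∀ e : OEdge d,
    Calc.Le (cj (M.f (eW F e)) (fb M e.1.tgt false .gOne)) (fb M e.1.src false .gOne)
  clean : ∀ (e : OEdge d) b, e.1.kind ≠ .junk →
    Calc.Le (cj (M.f (eW F e)) (fb M e.1.tgt b (cP e.1.tgt))) (fb M e.1.src b (cP e.1.src))
  hOne : ∀ (e : OEdge d) b, Calc.Le (cj (M.f (eW F e)) (fb M e.1.tgt b .hOne))
    (cj (M.f (rW F e.1.pval e.1.qval)) (fb M e.1.src b .hOne))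
  inner : ∀ (e : OEdge d) b i, tL F i ∈ slides M (fb M e.1.tgt b .full) (eW F e)
  outer : ∀ (e : OEdge d) b o, oL F o ∈ slides M (fb M e.1.tgt b .full) (eW F e)
  keepT : ∀ s b i, tL F i ∈ keeps M (fb M s b .hOne)
  finZ : ∀ b, Calc.Le (fb M .fin b .hOne) (fb M .fin b .zOne)
  finG : Calc.Le (fb M .fin false .gHOne) (fb M .fin false .gOne)
  finH : Calc.Le (fb M .fin false .gHOne) (fb M .fin false .hOne)
  cross : ∀ u v : FA d, Commute (M.f (oHom F (up₁ u))) (M.f (oHom F (up₂ v)))

variable (hG : Good d) (hF : IsCore F)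
include hG hF

theorem ev_edges : F.Ev fun M => Edges M := by
  have := finite_oEdge (d := d)
  have := finite_og (d := d)
  have := finite_state (d := d)
  have : Finite (Ltr d) :=
    Finite.of_injective (fun a => (Sum.inr (Sum.inl a) : OG d)) fun _ _ h => by simpa using h
  have hB := fun B => hasSet_base (F := F) hF (B := B)
  have h1 : ∀ (e : OEdge d) b, F.Ev fun M =>
      Calc.Le (cj (M.f (eW F e)) (fb M e.1.tgt b .full)) (fb M e.1.src b .full) ∧
      Calc.Le (cj (M.f (eW F e)) (fb M e.1.tgt b .zOne)) (fb M e.1.src b .zOne) ∧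
      Calc.Le (cj (M.f (eW F e)) (fb M e.1.tgt false .gOne)) (fb M e.1.src false .gOne) ∧
      Calc.Le (cj (M.f (eW F e)) (fb M e.1.tgt b .hOne))
        (cj (M.f (rW F e.1.pval e.1.qval)) (fb M e.1.src b .hOne)) := by
    intro e b
    obtain ⟨τ, hτ, ha⟩ := exists_eW hG hF e
    refine (((ev_carry hτ (hB ⟨e.1.tgt, b, .full⟩) (hB ⟨e.1.src, b, .full⟩) ?_).and
      (ev_carry hτ (hB ⟨e.1.tgt, b, .zOne⟩) (hB ⟨e.1.src, b, .zOne⟩) ?_)).and
      ((ev_carry hτ (hB ⟨e.1.tgt, false, .gOne⟩) (hB ⟨e.1.src, false, .gOne⟩) ?_).and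
      ((ev_carry hτ (hB ⟨e.1.tgt, b, .hOne⟩) ((hB ⟨e.1.src, b, .hOne⟩).image (isDiag_rW hF e.1.pval e.1.qval))
        ?_).and (ev_image (isDiag_rW hF e.1.pval e.1.qval) (hB ⟨e.1.src, b, .hOne⟩))))).mono
      fun M ⟨⟨a1, a2⟩, a3, a4, r⟩ => ⟨a1, a2, a3, r.symm ▸ a4⟩ <;>
      rintro ⟨st, σ, b', w, g, k⟩ ⟨⟨hs, hb⟩, hp⟩ <;> cases (show st = _ from hs) <;>
      cases (show b' = _ from hb) <;> rw [ha]
    · exact ⟨⟨rfl, rfl⟩, trivial⟩
    · exact ⟨⟨rfl, rfl⟩, (zval_edge e.2 σ b w g k).trans hp⟩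
    · exact ⟨⟨rfl, rfl⟩, hp⟩
    · obtain rfl : k = 1 := hp
      exact ⟨⟨e.1.src, .cons e.1 e.2 σ, b, w, g, 1⟩, ⟨⟨rfl, rfl⟩, rfl⟩,
        by rw [rW_apply]; simp⟩
  have h2 : ∀ (e : OEdge d) b, F.Ev fun M => e.1.kind ≠ .junk →
      Calc.Le (cj (M.f (eW F e)) (fb M e.1.tgt b (cP e.1.tgt))) (fb M e.1.src b (cP e.1.src)) := by
    intro e b
    by_cases hk : e.1.kind = .junk
    · exact Frame.Ev.of_forall fun M h => absurd hk h
    obtain ⟨τ, hτ, ha⟩ := exists_eW hG hF e
    refine (ev_carry hτ (hB ⟨e.1.tgt, b, cP e.1.tgt⟩) (hB ⟨e.1.src, b, cP e.1.src⟩) ?_).mono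
      fun M h _ => h
    rintro ⟨st, σ, b', w, g, k⟩ ⟨⟨hs, hb⟩, hp⟩
    cases (show st = _ from hs)
    cases (show b' = _ from hb)
    rw [ha]
    refine ⟨⟨rfl, rfl⟩, ?_⟩
    unfold cP
    by_cases hg : e.1.src = .guess
    · rw [if_pos hg]
      refine ⟨hg, ?_⟩
      show clean d (Path.cons e.1 e.2 σ)
      rcases hk' : e.1.kind with i | _ | _
      · have ht : e.1.tgt = .guess := by rw [edge_letter_eq e.2 hk']; rfl
        simp only [cP, if_pos ht] at hp
        simpa [clean, hk'] using hp.2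
      · exact absurd hk' hk
      · simp [clean, hk']
    · rw [if_neg hg]; trivial
  have h3 : ∀ (e : OEdge d) b i, F.Ev fun M =>
      tL F i ∈ slides M (fb M e.1.tgt b .full) (eW F e) := by
    intro e b i
    obtain ⟨τ, hτ, ha⟩ := exists_eW hG hF e
    refine (((ev_moves (isDiag_tL hF i)).and (ev_keep (isDiag_tL hF i)
      (hB ⟨e.1.tgt, b, .full⟩) fun x => ?_)).and (ev_same (hτ.mul (isDiag_tL hF i))
      ((isDiag_tL hF i).mul hτ) (hB ⟨e.1.tgt, b, .full⟩) ?_)).mono
      fun M ⟨⟨a, b⟩, c⟩ => slides_mk a b c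
    · rw [tL_apply]; exact Iff.rfl
    · rintro ⟨st, σ, b', w, g, k⟩ ⟨⟨hs, hb⟩, -⟩
      cases (show st = _ from hs)
      simp only [Equiv.Perm.mul_apply, tL_apply, ha]
  have h4 : ∀ (e : OEdge d) b o, F.Ev fun M =>
      oL F o ∈ slides M (fb M e.1.tgt b .full) (eW F e) := by
    intro e b o
    obtain ⟨τ, hτ, ha⟩ := exists_eW hG hF e
    refine (((ev_moves (isDiag_oL hF o)).and (ev_keep (isDiag_oL hF o)
      (hB ⟨e.1.tgt, b, .full⟩) fun x => ?_)).and (ev_same (hτ.mul (isDiag_oL hF o))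
      ((isDiag_oL hF o).mul hτ) (hB ⟨e.1.tgt, b, .full⟩) ?_)).mono
      fun M ⟨⟨a, b⟩, c⟩ => slides_mk a b c
    · rw [oL_apply]; exact Iff.rfl
    · rintro ⟨st, σ, b', w, g, k⟩ ⟨⟨hs, hb⟩, -⟩
      cases (show st = _ from hs)
      simp only [Equiv.Perm.mul_apply, oL_apply, ha, mul_assoc]
  refine ((((Frame.Ev.all fun q : OEdge d × Bool => h1 q.1 q.2).and
    (Frame.Ev.all fun q : OEdge d × Bool => h2 q.1 q.2)).and
    ((Frame.Ev.all fun q : OEdge d × Bool × Fin d.n => h3 q.1 q.2.1 q.2.2).and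
    (Frame.Ev.all fun q : OEdge d × Bool × OG d => h4 q.1 q.2.1 q.2.2))).and
    (((Frame.Ev.all fun q : State d × Bool × Fin d.n => (ev_moves (isDiag_tL hF q.2.2)).and
      (ev_keep (isDiag_tL hF q.2.2) (hB ⟨q.1, q.2.1, .hOne⟩)
        fun x => by rw [tL_apply]; exact Iff.rfl)).and
    (Frame.Ev.all fun b : Bool => ev_le (hB ⟨.fin, b, .hOne⟩) (hB ⟨.fin, b, .zOne⟩)
      fun x hx => ⟨hx.1, fin_hOne_subset_zOne ⟨hx.1.1, hx.2⟩⟩)).and
    (((ev_le (hB ⟨.fin, false, .gHOne⟩) (hB ⟨.fin, false, .gOne⟩)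
      fun x hx => ⟨hx.1, hx.2.1⟩).and (ev_le (hB ⟨.fin, false, .gHOne⟩) (hB ⟨.fin, false, .hOne⟩)
      fun x hx => ⟨hx.1, hx.2.2⟩)).and
    (Frame.Ev.all fun q : Ltr d × Ltr d => Frame.Ev.rel (F := F)
      (a := oHom F (up₁ (FreeGroup.of q.1)) * oHom F (up₂ (FreeGroup.of q.2)))
      (b := oHom F (up₂ (FreeGroup.of q.2)) * oHom F (up₁ (FreeGroup.of q.1))) ?_)))).mono ?_
  · simp only [map_mul, eval_oHom hF]
    rw [← map_mul, ← map_mul, oval_up₁, oval_up₂, ← map_mul, ← map_mul]
    simp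
  rintro M ⟨⟨⟨a1, a2⟩, a3, a4⟩, ⟨a5, a6⟩, ⟨a7, a8⟩, a9⟩
  refine ⟨fun e b => (a1 (e, b)).1, fun e b => (a1 (e, b)).2.1, fun e => (a1 (e, false)).2.2.1,
    fun e b => a2 (e, b), fun e b => (a1 (e, b)).2.2.2, fun e b i => a3 (e, b, i),
    fun e b o => a4 (e, b, o), fun s b i => a5 (s, b, i), a6, a7, a8, fun u v => ?_⟩
  induction u using FreeGroup.induction_on with
  | C1 => simp
  | of a =>
    induction v using FreeGroup.induction_on with
    | C1 => simp
    | of c => have := a9 (a, c); rw [map_mul, map_mul] at this; exact this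
    | inv_of c h => rw [map_inv, map_inv, map_inv]; exact h.inv_right
    | mul a b ha hb => rw [map_mul, map_mul, map_mul]; exact ha.mul_right hb
  | inv_of a h => rw [map_inv, map_inv, map_inv]; exact h.inv_left
  | mul a b ha hb => rw [map_mul, map_mul, map_mul]; exact ha.mul_left hb

omit hG hF

variable {M : F.Model} (B : Basic M) (E : Edges M)
include B E

theorem path_moves : ∀ {s : State d} (σ : Path d s), pathW F σ ∈ moves M
  | _, .nil => one_mem _
  | _, .cons e he σ => mul_mem (B.mE ⟨e, he⟩) (path_moves σ)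

theorem good_path {s : State d} (σ : Path d s) {f : Vgrp (Point d) →* M.P}
    (hf : Frame.Good M (phi M) f) : Frame.Good M (phi M) (cj (M.f (pathW F σ)) f) :=
  good_move (path_moves B E σ) hf

/-- A family of predicates carried along edges is carried along paths. -/
theorem path_carry (p : State d → Pred d) (b : Bool)
    (h : ∀ e : OEdge d, Calc.Le (cj (M.f (eW F e)) (fb M e.1.tgt b (p e.1.tgt)))
      (fb M e.1.src b (p e.1.src)))
    {g : Vgrp (Point d) →* M.P} (hg : Frame.Good M (phi M) g)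
    (h0 : Calc.Le g (fb M .fin b (p .fin))) : ∀ {s : State d} (σ : Path d s),
      Calc.Le (cj (M.f (pathW F σ)) g) (fb M s b (p s))
  | _, .nil => by rw [pathW, map_one, cj_one]; exact h0
  | _, .cons e he σ => by
    rw [pathW, cj_cj]
    exact le_trans (good_move (B.mE _) (good_path B E σ hg))
      (good_move (B.mE _) (B.good _)) (B.good _)
      (le_cj _ (path_carry p b h hg h0 σ)) (h ⟨e, he⟩)

theorem path_full (b : Bool) {s : State d} (σ : Path d s) :
    Calc.Le (cj (M.f (pathW F σ)) (fb M .fin b .hOne)) (fb M s b .full) :=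
  path_carry B E (fun _ => .full) b (fun e => E.full e b) (B.good _) (B.sub _ _ _) σ

theorem path_zOne (b : Bool) {s : State d} (σ : Path d s) :
    Calc.Le (cj (M.f (pathW F σ)) (fb M .fin b .hOne)) (fb M s b .zOne) :=
  path_carry B E (fun _ => .zOne) b (fun e => E.zOne e b) (B.good _) (E.finZ b) σ

theorem path_gOne {s : State d} (σ : Path d s) :
    Calc.Le (cj (M.f (pathW F σ)) (fb M .fin false .gHOne)) (fb M s false .gOne) :=
  path_carry B E (fun _ => .gOne) false (fun e => E.gOne e) (B.good _) E.finG σ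

theorem path_clean (b : Bool) : ∀ {s : State d} (σ : Path d s), (s = .guess → clean d σ) →
    Calc.Le (cj (M.f (pathW F σ)) (fb M .fin b .hOne)) (fb M s b (cP s))
  | _, .nil => fun _ => by
    rw [pathW, map_one, cj_one, cP, if_neg (by simp)]
    exact B.sub _ _ _
  | _, .cons e he σ => fun hc => by
    have hk : e.kind ≠ .junk := fun hk => by
      have := hc (edge_junk_src he hk)
      simp [clean, hk] at this
    rw [pathW, cj_cj]
    refine le_trans (good_move (B.mE _) (good_path B E σ (B.good _)))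
      (good_move (B.mE _) (B.good _)) (B.good _) (le_cj _ (path_clean b σ fun ht => ?_))
      (E.clean ⟨e, he⟩ b hk)
    rcases hk' : e.kind with i | _ | _
    · have := hc (by rw [edge_letter_eq he hk']; rfl)
      simpa [clean, hk'] using this
    · exact absurd hk' hk
    · exfalso
      cases he <;> simp at hk' ht

theorem path_slide (b : Bool) (i : Fin d.n) : ∀ {s : State d} (σ : Path d s),
    tL F i ∈ slides M (fb M .fin b .hOne) (pathW F σ)
  | _, .nil => ⟨E.keepT _ _ i, by rw [pathW, one_mul, mul_one]; exact Same.refl _ _⟩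
  | _, .cons e he σ => by
    refine ⟨E.keepT _ _ i, ?_⟩
    have h1 := (path_slide b i σ).2.left (eW F ⟨e, he⟩)
    have h2 := Same.right (path_moves B E σ) (Same.down (good_path B E σ (B.good _))
      (path_full B E b σ) (E.inner ⟨e, he⟩ b i).2)
    rw [← mul_assoc, ← mul_assoc] at h1
    rw [pathW, ← mul_assoc]
    exact h1.trans h2

theorem rM_mul (p q p' q' : FA d) :
    M.f (rW F p' q') * M.f (rW F p q) = M.f (rW F (p * p') (q * q')) := by
  simp only [rW, map_mul, mul_inv_rev]
  rw [← mul_assoc, mul_assoc _ (M.f (oHom F (up₂ q'⁻¹))), (E.cross _ _).symm.eq]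
  group

/-- The outer coordinate reached along a path. -/
theorem path_hOne (b : Bool) : ∀ {s : State d} (σ : Path d s),
    Calc.Le (cj (M.f (pathW F σ)) (fb M .fin b .hOne))
      (cj (M.f (rW F (spelled σ).1 (spelled σ).2)) (fb M s b .hOne))
  | _, .nil => by simp [pathW, spelled, rW, cj_one, Calc.Le.refl]
  | _, .cons e he σ => by
    have hr : rW F (spelled σ).1 (spelled σ).2 ∈
        slides M (fb M e.tgt b .full) (eW F ⟨e, he⟩) :=
      mul_mem (oHom_mem (E.outer ⟨e, he⟩ b) _) (oHom_mem (E.outer ⟨e, he⟩ b) _)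
    have hx := (Same.down (B.good _) (B.sub e.tgt b .hOne) hr.2).cj_eq
    rw [cj_cj, cj_cj] at hx
    rw [pathW, cj_cj]
    refine le_trans (good_move (B.mE _) (good_path B E σ (B.good _)))
      (good_move (B.mE _) (good_move hr.1.1 (B.good _)))
      (good_move (mul_mem (B.mOH _) (B.mOH _)) (B.good _)) (le_cj _ (path_hOne b σ)) ?_
    rw [hx, spelled, ← rM_mul B E, cj_mul]
    exact le_cj _ (E.hOne ⟨e, he⟩ b)

end Vale.Agent.P193.Core.Inst.Laws
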