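import Vale.Agent.P193.Full.Core.Inst.SetFields
import Vale.Agent.P193.Full.Core.Inst.Words
import Vale.Agent.P193.Full.Calc.Laws.Fix

/-! Words acting alike on a field: their quotient and its part in the second half both centralise
the field. This is a congruence on diagonal words that passes to smaller good fields. -/

namespace Vale.Agent.P193.Core.Inst.Laws

open Calc Calc.Laws Classical

variable {d : Data} {F : Calc.Frame (Point d)} {M : F.Model}

/-- The part of a word in the second half. -/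
noncomputable def half (M : F.Model) : F.Free →* M.P := M.f.comp (Frame.lpWord [true])

variable (M) in
/-- Words that keep good fields and conjugate the second half as they conjugate words. -/
noncomputable def moves : Subgroup F.Free where
  carrier := {c | M.f c ∈ Frame.moveSub M (phi M) ∧
    ∀ w, M.f c * half M w * (M.f c)⁻¹ = half M (c * w * c⁻¹)}
  one_mem' := ⟨by rw [map_one]; exact one_mem _, fun w => by simp⟩
  mul_mem' := by
    rintro a b ⟨a1, a2⟩ ⟨b1, b2⟩
    refine ⟨by rw [map_mul]; exact mul_mem a1 b1, fun w => ?_⟩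
    rw [show a * b * w * (a * b)⁻¹ = a * (b * w * b⁻¹) * a⁻¹ by group, ← a2, ← b2, map_mul]
    group
  inv_mem' := by
    rintro c ⟨c1, c2⟩
    refine ⟨by rw [map_inv]; exact inv_mem c1, fun w => ?_⟩
    have e := c2 (c⁻¹ * w * c)
    rw [show c * (c⁻¹ * w * c) * c⁻¹ = w by group] at e
    rw [inv_inv, ← e, map_inv]
    group

theorem moves_comm {c : F.Free} (hc : c ∈ moves M) (v : Vgrp (Point d)) :
    Commute (M.f c) (phi M v) := hc.1.1 v

theorem good_move {c : F.Free} (hc : c ∈ moves M) {f : Vgrp (Point d) →* M.P}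
    (hf : Frame.Good M (phi M) f) : Frame.Good M (phi M) (cj (M.f c) f) := good_cj hc.1 hf

theorem cj_phi {c : F.Free} (hc : c ∈ moves M) : cj (M.f c) (phi M) = phi M :=
  cj_of_commute (moves_comm hc)

theorem cj_cj (a b : F.Free) (f : Vgrp (Point d) →* M.P) :
    cj (M.f (a * b)) f = cj (M.f a) (cj (M.f b) f) := by rw [map_mul, cj_mul]

theorem cj_inv_left (c : F.Free) (f : Vgrp (Point d) →* M.P) :
    cj (M.f c⁻¹) (cj (M.f c) f) = f := by rw [map_inv, cj_inv_cancel]

/-- A word is null on a field if it and its part in the second half act there as the identity. -/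
noncomputable def Null (M : F.Model) (f : Vgrp (Point d) →* M.P) : Subgroup F.Free :=
  moves M ⊓ ((Fix f).comap M.f ⊓ (Fix f).comap (half M))

theorem mem_null {f : Vgrp (Point d) →* M.P} {z : F.Free} :
    z ∈ Null M f ↔ z ∈ moves M ∧ M.f z ∈ Fix f ∧ half M z ∈ Fix f := Iff.rfl

/-- Two words act alike on a field. -/
def Same (M : F.Model) (f : Vgrp (Point d) →* M.P) (x y : F.Free) : Prop :=
  x⁻¹ * y ∈ Null M f

variable {f g : Vgrp (Point d) →* M.P} {x y z c : F.Free}

theorem Same.refl (f : Vgrp (Point d) →* M.P) (x : F.Free) : Same M f x x := by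
  rw [Same, inv_mul_cancel]; exact one_mem _

theorem Same.symm (h : Same M f x y) : Same M f y x := by
  have := inv_mem h
  rwa [mul_inv_rev, inv_inv] at this

theorem Same.trans (h : Same M f x y) (h' : Same M f y z) : Same M f x z := by
  have := mul_mem h h'
  rwa [show x⁻¹ * y * (y⁻¹ * z) = x⁻¹ * z by group] at this

theorem Same.left (h : Same M f x y) (c : F.Free) : Same M f (c * x) (c * y) := by
  rwa [Same, show (c * x)⁻¹ * (c * y) = x⁻¹ * y by group]

theorem Same.right (hc : c ∈ moves M) (h : Same M (cj (M.f c) f) x y) :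
    Same M f (x * c) (y * c) := by
  obtain ⟨h1, h2, h3⟩ := mem_null.1 h
  rw [Same, show (x * c)⁻¹ * (y * c) = c⁻¹ * (x⁻¹ * y) * c by group, mem_null]
  refine ⟨mul_mem (mul_mem (inv_mem hc) h1) hc, ?_, ?_⟩
  · rw [map_mul, map_mul, map_inv]
    exact (mem_fix_move (M.f c) _).1 h2
  · have e := (inv_mem hc).2 (x⁻¹ * y)
    rw [inv_inv, map_inv, inv_inv] at e
    rw [← e]
    exact (mem_fix_move (M.f c) _).1 h3

theorem Same.cj_eq (h : Same M f x y) : cj (M.f x) f = cj (M.f y) f := by
  have h2 := mem_fix.1 (mem_null.1 h).2.1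
  ext v
  rw [show M.f y = M.f x * M.f (x⁻¹ * y) by rw [← map_mul, mul_inv_cancel_left]]
  simp only [cj_apply]
  calc M.f x * f v * (M.f x)⁻¹
      = M.f x * (f v * M.f (x⁻¹ * y)) * (M.f (x⁻¹ * y))⁻¹ * (M.f x)⁻¹ := by group
    _ = _ := by rw [← (h2 v).eq]; group

theorem gen_false :
    Subgroup.normalClosure {vswap (S := Point d) colAB} = (⊤ : Subgroup (Vgrp (Point d))) :=
  eq_top_iff.2 fun v _ => by
    have hv : v ∈ conjGen (Point d) :=
      vswap_conj_generate (S := Point d) ▸ Subgroup.mem_top v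
    refine (Subgroup.closure_le _).2 ?_ hv
    rintro _ ⟨k, rfl⟩
    exact (Subgroup.normalClosure_normal).conj_mem _
      (Subgroup.subset_normalClosure (Set.mem_singleton _)) k

theorem exists_gen_true :
    ∃ a : Vgrp (Point d), InCone [true] a ∧ Subgroup.normalClosure {a} = ⊤ := by
  set k : Vgrp (Point d) := vswap Calc.halvesApart
  set a₀ : Vgrp (Point d) := vswap colAB
  refine ⟨k * a₀ * k⁻¹, ?_, eq_top_iff.2 ?_⟩
  · exact (Calc.inCone_vswap colAB (u := [false]) ⟨[false], rfl⟩ ⟨[true], rfl⟩).conj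
      fun z => vswap_fwd Calc.halvesApart z
  · rw [← gen_false]
    refine Subgroup.normalClosure_le_normal (Set.singleton_subset_iff.2 ?_)
    have := (Subgroup.normalClosure_normal (s := {k * a₀ * k⁻¹})).conj_mem _
      (Subgroup.subset_normalClosure (Set.mem_singleton _)) k⁻¹
    rwa [show k⁻¹ * (k * a₀ * k⁻¹) * k⁻¹⁻¹ = a₀ by group] at this

/-- Acting alike passes to smaller good fields. -/
theorem Same.down (hg : Frame.Good M (phi M) g) (hle : Calc.Le g f) (h : Same M f x y) :
    Same M g x y := by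
  obtain ⟨h1, h2, h3⟩ := mem_null.1 h
  set w := x⁻¹ * y
  have hb : Below g f := fun a b => hle.comm_eq a b
  have hside : ∀ u, InCone [false] u → Commute (half M w) (g u) := fun u hu =>
    (hg.left u hu _ ⟨w, rfl⟩).symm
  have e3 : half M w ∈ Fix g := mem_fix_of_below hb h3 gen_false
    (hside _ (Calc.inCone_vswap colAB ⟨[false], rfl⟩ ⟨[true], rfl⟩))
  obtain ⟨a, ha, hgen⟩ := exists_gen_true (d := d)
  obtain ⟨u, hu⟩ := hg.right a ha
  have hy : Commute (M.f w * (half M w)⁻¹) (g a) := by
    rw [← hu]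
    show Commute _ (half M u)
    have e := h1.2 (w⁻¹ * u * w)
    rw [show w * (w⁻¹ * u * w) * w⁻¹ = u by group] at e
    simp only [map_mul, map_inv] at e
    refine mul_inv_eq_iff_eq_mul.1 ?_
    rw [mul_inv_rev, inv_inv]
    simpa only [mul_assoc] using e
  have e2 := mul_mem (mem_fix_of_below hb (mul_mem h2 (inv_mem h3)) hgen hy) e3
  rw [inv_mul_cancel_right] at e2
  exact mem_null.2 ⟨h1, e2, e3⟩

/-- Order of good fields is transitive. -/
theorem le_trans {e f g : Vgrp (Point d) →* M.P} (he : Frame.Good M (phi M) e)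
    (hf : Frame.Good M (phi M) f) (hg : Frame.Good M (phi M) g) (h1 : Calc.Le e f)
    (h2 : Calc.Le f g) : Calc.Le e g :=
  Calc.Le.trans he.le hf.le hg.le h1 h2 (he.farComm hg)

/-- Disjointness passes to good fields below. -/
theorem disj_of_le {a b : Vgrp (Point d) →* M.P} (hf : Frame.Good M (phi M) f)
    (hg : Frame.Good M (phi M) g) (hb : Frame.Good M (phi M) b) (h1 : Calc.Le f a)
    (h2 : Calc.Le g b) (h : Calc.Disj a b) : Calc.Disj f g := by
  have h3 : Calc.Disj f b := h1.disj h (hf.farComm hb)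
  have h4 : Calc.Disj g f := h2.disj (fun v w => (h3 w v).symm) (hg.farComm hf)
  exact fun v w => (h4 w v).symm

/-! ### Base rules -/

theorem isDiag_of {x : F.Free} {τ : Equiv.Perm (Point d)} (h : F.eval x = diag τ) :
    F.IsDiag x τ := fun a s => by rw [h]; rfl

theorem ev_moves {x : F.Free} {τ : Equiv.Perm (Point d)} (hx : F.IsDiag x τ) :
    F.Ev fun M => x ∈ moves M := by
  have := F.fin_ι
  refine ((ev_diag hx).and (Frame.Ev.all fun g : Fin F.m ⊕ F.ι => Frame.Ev.rel (F := F)
    (a := x * Frame.lpWord [true] (FreeGroup.of g) * x⁻¹)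
    (b := Frame.lpWord [true] (x * FreeGroup.of g * x⁻¹)) ?_)).mono ?_
  · simp only [map_mul, map_inv, Frame.eval_lpWord]
    rw [hx.lp_conj]
    simp only [map_mul, map_inv]
  rintro M ⟨⟨h1, -⟩, h2⟩
  refine ⟨h1, fun w => ?_⟩
  have e : (half M).comp (MulAut.conj x).toMonoidHom =
      (MulAut.conj (M.f x)).toMonoidHom.comp (half M) :=
    FreeGroup.ext_hom _ _ fun g => by simpa [half] using (h2 g).symm
  exact (DFunLike.congr_fun e w).symm

/-- Words agreeing on a set act alike on its field. -/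
theorem ev_same {x y : F.Free} {τ υ : Equiv.Perm (Point d)} (hx : F.IsDiag x τ)
    (hy : F.IsDiag y υ) {D : Set (Point d)} (hD : HasSet F D) (h : ∀ s ∈ D, τ s = υ s) :
    F.Ev fun M => Same M (setFld M D) x y := by
  obtain ⟨z, hz⟩ : ∃ z, z = x⁻¹ * y := ⟨_, rfl⟩
  have hzd : F.IsDiag z (τ⁻¹ * υ) := hz ▸ hx.inv.mul hy
  have hfix : ∀ s ∈ D, (τ⁻¹ * υ) s = s := fun s hs => by
    rw [Equiv.Perm.mul_apply, ← h s hs]; exact τ.symm_apply_apply s
  have c1 : ∀ v, Commute (F.eval z) (restr D v) := fun v => by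
    refine Equiv.Perm.Disjoint.commute fun p => ?_
    obtain ⟨a, s⟩ := p
    by_cases hs : s ∈ D
    · exact Or.inl (by rw [hzd, hfix s hs])
    · exact Or.inr (restr_out (x := (a, s)) hs v)
  have c2 : ∀ v, Commute (lp (hv (Point d)) [true] (F.eval z)) (restr D v) := fun v => by
    refine Equiv.Perm.Disjoint.commute fun p => ?_
    by_cases hs : p.2 ∈ D
    · left
      by_cases hp : ∃ q, p = (hv (Point d)).pre [true] q
      · obtain ⟨⟨a, s⟩, rfl⟩ := hp
        rw [hv_pre_snd] at hs
        rw [lp_pre, hzd, hfix s hs]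
      · exact lp_out _ _ hp
    · exact Or.inr (restr_out hs v)
  refine (((ev_setFld hD).and (ev_moves hzd)).and
    ((Frame.Ev.all fun j => Frame.Ev.rel (F := F) (a := z * setWord F D j)
      (b := setWord F D j * z) (by rw [map_mul, map_mul, eval_setWord_of hD]; exact c1 _)).and
    (Frame.Ev.all fun j => Frame.Ev.rel (F := F)
      (a := Frame.lpWord [true] z * setWord F D j) (b := setWord F D j * Frame.lpWord [true] z)
      (by rw [map_mul, map_mul, Frame.eval_lpWord, eval_setWord_of hD]; exact c2 _)))).mono ?_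
  rintro M ⟨⟨⟨-, hw, -⟩, hm⟩, r1, r2⟩
  have key : ∀ a : M.P, (∀ j, Commute a (setFld M D (F.vgen j))) → a ∈ Fix (setFld M D) := by
    intro a ha
    have e : (MulAut.conj a).toMonoidHom.comp (setFld M D) = setFld M D :=
      Frame.hom_ext (F := F) fun j => by simp [(ha j).eq]
    exact mem_fix.2 fun v => mul_inv_eq_iff_eq_mul.1 (DFunLike.congr_fun e v)
  subst hz
  refine mem_null.2 ⟨hm, key _ fun j => ?_, key _ fun j => ?_⟩
  · have := r1 j
    rw [map_mul _ (x⁻¹ * y), map_mul _ (setWord F D j), ← hw] at this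
    exact this
  · have := r2 j
    rw [map_mul M.f (Frame.lpWord [true] (x⁻¹ * y)), map_mul M.f (setWord F D j), ← hw] at this
    exact this

/-- A word carrying one set into another carries the field below the other. -/
theorem ev_carry {x : F.Free} {τ : Equiv.Perm (Point d)} (hx : F.IsDiag x τ)
    {D E : Set (Point d)} (hD : HasSet F D) (hE : HasSet F E) (h : ∀ s ∈ D, τ s ∈ E) :
    F.Ev fun M => Calc.Le (cj (M.f x) (setFld M D)) (setFld M E) :=
  ((ev_image hx hD).and (ev_le (hD.image hx) hE (by rintro _ ⟨s, hs, rfl⟩; exact h s hs))).mono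
    fun _ ⟨h1, h2⟩ => h1 ▸ h2

/-- A word preserving a set preserves its field. -/
theorem ev_keep {x : F.Free} {τ : Equiv.Perm (Point d)} (hx : F.IsDiag x τ)
    {D : Set (Point d)} (hD : HasSet F D) (h : ∀ s, τ s ∈ D ↔ s ∈ D) :
    F.Ev fun M => cj (M.f x) (setFld M D) = setFld M D := by
  have e : τ '' D = D := by
    ext t
    exact ⟨fun ⟨s, hs, e⟩ => e ▸ (h s).2 hs, fun ht => ⟨τ.symm t, (h _).1 (by simpa using ht),
      by simp⟩⟩
  exact (ev_image hx hD).mono fun _ h1 => by rw [h1, e]

/-- A good field below two fields of sets is below that of the meet. -/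
theorem ev_meet {A B : Set (Point d)} (hA : HasSet F A) (hB : HasSet F B) :
    F.Ev fun M => ∀ g, Frame.Good M (phi M) g → Calc.Le g (setFld M A) →
      Calc.Le g (setFld M B) → Calc.Le g (setFld M (A ∩ B)) := by
  refine (((ev_split hA hB).and (ev_disj_fld (hA.inter hB) (hA.diff hB)
    Set.disjoint_sdiff_inter.symm)).and (ev_setFld (hA.diff hB))).mono ?_
  rintro M ⟨⟨⟨he, hd, -⟩, d'⟩, -, -, -, hgd⟩ g hg h1 h2
  have e : setFld M A = Calc.join (setFld M (A ∩ B)) (setFld M (A \ B)) d' := by
    ext v; rw [he v, join_apply]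
  rw [e] at h1
  exact Calc.Le.of_join_left d' h1 (h2.disj (fun v w => (hd w v).symm) (hg.farComm hgd))

/-- Acting as the identity over finitely many disjoint sets is acting so over their union. -/
theorem ev_fix_union {ι : Type} {e : ι → Set (Point d)} (he : ∀ i, HasSet F (e i))
    (hd : ∀ i j, i ≠ j → Disjoint (e i) (e j)) (s : Finset ι) :
    HasSet F (⋃ i ∈ s, e i) ∧ F.Ev fun M => ∀ z : M.P, (∀ i ∈ s, z ∈ Fix (setFld M (e i))) →
      z ∈ Fix (setFld M (⋃ i ∈ s, e i)) := by
  induction s using Finset.induction with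
  | empty =>
    have h0 : HasSet F (∅ : Set (Point d)) := Set.compl_univ ▸ (hasSet_univ (F := F)).compl
    simp only [Finset.notMem_empty, Set.iUnion_of_empty, Set.iUnion_empty]
    refine ⟨h0, ev_empty.mono fun M h z _ => ?_⟩
    rw [h]
    exact mem_fix.2 fun _ => Commute.one_right _
  | @insert i s hi ih =>
    rw [Finset.set_biUnion_insert]
    have hdis : Disjoint (e i) (⋃ j ∈ s, e j) := by
      simp only [Set.disjoint_iUnion_right]
      exact fun j hj => hd i j fun h => hi (h ▸ hj)
    refine ⟨(he i).union ih.1, (ih.2.and (ev_join (he i) ih.1 hdis)).mono ?_⟩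
    rintro M ⟨h1, h2⟩ z hz
    refine mem_fix.2 fun v => ?_
    rw [h2 v]
    exact (mem_fix.1 (hz i (Finset.mem_insert_self i s)) v).mul_right
      (mem_fix.1 (h1 z fun j hj => hz j (Finset.mem_insert_of_mem hj)) v)

/-- Acting alike on every part is acting alike everywhere. -/
theorem ev_same_univ {ι : Type} [Fintype ι] {e : ι → Set (Point d)} (he : ∀ i, HasSet F (e i))
    (hd : ∀ i j, i ≠ j → Disjoint (e i) (e j)) (hc : ∀ s, ∃ i, s ∈ e i) :
    F.Ev fun M => ∀ x y, x⁻¹ * y ∈ moves M → (∀ i, Same M (setFld M (e i)) x y) →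
      Same M (phi M) x y := by
  have hu : (⋃ i ∈ (Finset.univ : Finset ι), e i) = Set.univ := by
    ext s; simpa using hc s
  refine ((ev_fix_union he hd Finset.univ).2.and ev_univ).mono ?_
  rintro M ⟨h1, h2⟩ x y hm h
  rw [hu, h2] at h1
  exact mem_null.2 ⟨hm, h1 _ fun i _ => (mem_null.1 (h i)).2.1,
    h1 _ fun i _ => (mem_null.1 (h i)).2.2⟩

end Vale.Agent.P193.Core.Inst.Laws
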