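import Vale.Agent.P193.Full.Core.Inst.Laws.Same

/-! The generating words used by the laws, their permutations, and the facts about the base
fields that hold eventually. -/

namespace Vale.Agent.P193.Core.Inst.Laws

open Calc Facts Classical

set_option linter.unusedSectionVars false

variable {d : Data} [DecidableEq d.M.A]

/-- Generators of the outer group. -/
abbrev OG (d : Data) := {x // x ∈ d.subGens} ⊕ (Ltr d ⊕ Ltr d)

/-- Their values. -/
def oval : OG d → Outer d
  | .inl x => (x.1, 1, 1)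
  | .inr (.inl a) => (1, FreeGroup.of a, 1)
  | .inr (.inr a) => (1, 1, FreeGroup.of a)

variable (F : Calc.Frame (Point d))

/-- The word of an inner generator. -/
noncomputable def tL (i : Fin d.n) : F.Free := tr F (gT (d.gen i)) Set.univ

/-- The word of a list of inner generators, the first applied first. -/
noncomputable def tW : List (Fin d.n) → F.Free
  | [] => 1
  | i :: l => tW l * tL F i

theorem tW_append : ∀ l l', tW F (l ++ l') = tW F l' * tW F l
  | [], l' => by simp [tW]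
  | i :: l, l' => by simp [tW, tW_append l l', mul_assoc]

/-- The word of an outer generator. -/
noncomputable def oL (o : OG d) : F.Free := tr F (hT (oval o)) Set.univ

/-- Words in the outer generators, with inverses as in `outWord`. -/
noncomputable def oHom : FreeGroup (OG d) →* F.Free := FreeGroup.lift fun o => (oL F o)⁻¹

/-- The word of an edge. -/
noncomputable def eW (e : OEdge d) : F.Free := tr F (edgeG e.1 e.2) (atS e.1.tgt)

/-- The word of a push on one state. -/
noncomputable def pW (p : Push) (s : State d) : F.Free := tr F (p.graph (d := d)) (atS s)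

/-- The word multiplying the guessed value on. -/
noncomputable def uW : F.Free :=
  tr F (uG (d := d) 2) (atS .guess) * tr F (uG (d := d) 1) (atS .guess) *
    tr F (uG (d := d) 0) (atS .guess)

/-- The field of a state, a tag and a predicate. -/
noncomputable abbrev fb {F : Calc.Frame (Point d)} (M : F.Model) (s : State d) (b : Bool)
    (p : Pred d) : Vgrp (Point d) →* M.P := bfld M ⟨s, b, p⟩

theorem mem_base {s : State d} {b : Bool} {p : Pred d} {x : Point d} :
    x ∈ Base.set ⟨s, b, p⟩ ↔ (x.st = s ∧ x.tag = b) ∧ x ∈ p.set := Iff.rfl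

variable {F}

theorem isDiag_tL (hF : IsCore F) (i : Fin d.n) : F.IsDiag (tL F i) (inPerm (d.gen i))⁻¹ :=
  isDiag_of (eval_tr_gT hF i)

theorem tL_apply (i : Fin d.n) (x : Point d) :
    (inPerm (d.gen i))⁻¹ x = { x with g := x.g * d.gen i } := rfl

theorem gen_oval : ∀ o : OG d, Core.Gen d (hT (oval o))
  | .inl x => gen_hT₀ x.1 x.2
  | .inr (.inl a) => gen_hT₁ a
  | .inr (.inr a) => gen_hT₂ a

theorem isDiag_oL (hF : IsCore F) (o : OG d) : F.IsDiag (oL F o) (outPerm (oval o))⁻¹ :=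
  isDiag_of (eval_tr_hT hF (gen_oval o))

theorem oL_apply (o : OG d) (x : Point d) :
    (outPerm (oval o))⁻¹ x = { x with h := x.h * oval o } := rfl

theorem oHom_of (o : OG d) : oHom F (FreeGroup.of o) = (oL F o)⁻¹ := FreeGroup.lift_apply_of

theorem eval_oHom (hF : IsCore F) (u : FreeGroup (OG d)) :
    F.eval (oHom F u) = diag (outPerm (FreeGroup.lift oval u)) := by
  have e : F.eval.comp (oHom F) = diag.comp (outPerm.comp (FreeGroup.lift oval)) :=
    FreeGroup.ext_hom _ _ fun o => by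
      simp only [MonoidHom.comp_apply, oHom_of, map_inv, FreeGroup.lift_apply_of, oL,
        eval_tr_hT hF (gen_oval o), inv_inv]
  exact DFunLike.congr_fun e u

variable (hG : Good d) (hF : IsCore F)
include hG hF

theorem exists_eW (e : OEdge d) : ∃ τ, F.IsDiag (eW F e) τ ∧ ∀ σ b w g h,
    τ (⟨e.1.tgt, σ, b, w, g, h⟩ : Point d) =
      ⟨e.1.src, .cons e.1 e.2 σ, b, w, g, (1, e.1.pval, e.1.qval) * h⟩ := by
  obtain ⟨τ, hτ, h⟩ := tr_edge hG hF e
  exact ⟨τ, hτ, fun σ b w g k => h _ rfl _ ⟨σ, b, w, g, k, rfl, rfl⟩⟩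

theorem exists_pW (p : Push) (s : State d) : ∃ τ, F.IsDiag (pW F p s) τ ∧
    ∀ x, x.st = s → ∀ y, (x, y) ∈ (p.graph (d := d)) → τ x = y := by
  obtain ⟨τ, hτ, h⟩ := tr_push hG hF p s
  exact ⟨τ, hτ, h⟩

theorem exists_uW : ∃ τ, F.IsDiag (uW F) τ ∧ ∀ σ w g h,
    τ (⟨.guess, σ, true, w, g, h⟩ : Point d) = ⟨.guess, σ, true, w, g * guessVal d σ, h⟩ := by
  have h : ∀ j, ∃ τ, F.IsDiag (tr F (uG (d := d) j) (atS .guess)) τ ∧ ∀ σ w g h,
      τ (⟨.guess, σ, true, w, g, h⟩ : Point d) =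
        ⟨.guess, σ, true, w, g * proj j (guessVal d σ), h⟩ := by
    intro j
    have hsub : gimg (uG (d := d) j) (atS .guess) ⊆ atS .guess := by
      rintro y ⟨x, hx, hxy⟩
      rw [show y = _ from hxy.2.2]
      exact hx
    obtain ⟨τ, hτ, h⟩ := tr_spec (exists_tr_state hG hF (gen_uG j) .guess .guess hsub)
    exact ⟨τ, hτ, fun σ w g k => h _ rfl _ ⟨rfl, rfl, rfl⟩⟩
  obtain ⟨τ₀, d₀, a₀⟩ := h 0
  obtain ⟨τ₁, d₁, a₁⟩ := h 1
  obtain ⟨τ₂, d₂, a₂⟩ := h 2
  refine ⟨τ₂ * τ₁ * τ₀, (d₂.mul d₁).mul d₀, fun σ w g k => ?_⟩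
  rw [Equiv.Perm.mul_apply, Equiv.Perm.mul_apply, a₀, a₁, a₂, mul_assoc, mul_assoc,
    ← mul_assoc (proj 0 _), Facts.proj_split]

omit hG in
theorem hasSet_base (B : Base d) : HasSet F B.set := Calc.Frame.exists_restr_gmem (gmem_base hF B)

omit hG hF in
theorem finite_base : Finite (Base d) := by
  have := finite_ltr (d := d)
  have := finite_state (d := d)
  have : Finite (Pred d) := by
    refine Finite.of_surjective (α := Fin 7 ⊕ (Ltr d × Bool))
      (Sum.elim ![.full, .hOne, .zOne, .clean, .gOne, .kSet, .gHOne] .zFront) ?_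
    rintro (_ | _ | _ | s | _ | _ | _ | _)
    exacts [⟨.inl 0, rfl⟩, ⟨.inl 1, rfl⟩, ⟨.inl 2, rfl⟩, ⟨.inr s, rfl⟩, ⟨.inl 3, rfl⟩,
      ⟨.inl 4, rfl⟩, ⟨.inl 5, rfl⟩, ⟨.inl 6, rfl⟩]
  exact Finite.of_injective (fun B : Base d => (B.s, B.b, B.p))
    fun ⟨_, _, _⟩ ⟨_, _, _⟩ h => by simpa using h

omit hG hF in
theorem finite_oEdge : Finite (OEdge d) := (finite_edges (d := d)).to_subtype

omit hG hF in
theorem finite_og : Finite (OG d) := by
  have := finite_ltr (d := d)
  have : Finite (Ltr d) := Finite.of_injective (fun a => ((a, true) : Ltr d × Bool))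
    fun _ _ h => congrArg Prod.fst h
  infer_instance

/-- The basic eventual facts. -/
structure Basic {F : Calc.Frame (Point d)} (M : F.Model) : Prop where
  phi : Frame.IsPhi M (phi M)
  good : ∀ B : Base d, Frame.Good M (Inst.phi M) (bfld M B)
  sub : ∀ s b p, Calc.Le (fb M s b p) (fb M s b .full)
  mT : ∀ i, tL F i ∈ moves M
  mO : ∀ o, oL F o ∈ moves M
  mE : ∀ e, eW F e ∈ moves M
  mP : ∀ p s, pW F p s ∈ moves M
  mU : uW F ∈ moves M
  everywhere : ∀ x y, x⁻¹ * y ∈ moves M → (∀ s b, Same M (fb M s b .full) x y) →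
    Same M (Inst.phi M) x y

theorem ev_basic : F.Ev fun M => Basic M := by
  have := finite_base (d := d)
  have := finite_oEdge (d := d)
  have := finite_og (d := d)
  have := finite_state (d := d)
  have : Finite Push := Finite.of_surjective ![Push.theta, .omC, .omD, .omK, .tMap] (by
    rintro (_ | _ | _ | _ | _)
    exacts [⟨0, rfl⟩, ⟨1, rfl⟩, ⟨2, rfl⟩, ⟨3, rfl⟩, ⟨4, rfl⟩])
  have := Fintype.ofFinite (State d × Bool)
  refine ((((ev_phi.and (Frame.Ev.all fun B : Base d => ev_setFld (hasSet_base hF B))).and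
    (Frame.Ev.all fun B : Base d =>
      ev_le (hasSet_base hF B) (hasSet_base hF ⟨B.s, B.b, .full⟩)
        fun x hx => ⟨hx.1, trivial⟩)).and
    (((Frame.Ev.all fun i => ev_moves (isDiag_tL hF i)).and
      (Frame.Ev.all fun o => ev_moves (isDiag_oL hF o))).and
    (((Frame.Ev.all fun e => let ⟨_, h, _⟩ := exists_eW hG hF e; ev_moves h).and
      (Frame.Ev.all fun q : Push × State d =>
        let ⟨_, h, _⟩ := exists_pW hG hF q.1 q.2; ev_moves h)).and
      (let ⟨_, h, _⟩ := exists_uW hG hF; ev_moves h)))).and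
    (ev_same_univ (e := fun q : State d × Bool => Base.set ⟨q.1, q.2, .full⟩)
      (fun q => hasSet_base hF _) ?_ fun x => ⟨(x.st, x.tag), ⟨rfl, rfl⟩, trivial⟩)).mono ?_
  · rintro ⟨s, b⟩ ⟨s', b'⟩ hne
    refine Set.disjoint_left.2 ?_
    rintro x ⟨⟨h1, h2⟩, -⟩ ⟨⟨h3, h4⟩, -⟩
    exact hne (Prod.ext ((show x.st = s from h1).symm.trans h3)
      ((show x.tag = b from h2).symm.trans h4))
  rintro M ⟨⟨⟨⟨h1, h2⟩, h3⟩, ⟨h4, h5⟩, ⟨h6, h7⟩, h8⟩, h9⟩
  exact ⟨h1, fun B => (h2 B).2.2.2, fun s b p => h3 ⟨s, b, p⟩, h4, h5, h6,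
    fun p s => h7 (p, s), h8, fun x y hm h => h9 x y hm fun q => h q.1 q.2⟩

omit hG hF

variable {M : F.Model}

theorem Basic.mTW (B : Basic M) : ∀ l, tW F l ∈ moves M
  | [] => one_mem _
  | i :: l => mul_mem (B.mTW l) (B.mT i)

theorem Basic.mOH (B : Basic M) (u : FreeGroup (OG d)) : oHom F u ∈ moves M := by
  induction u using FreeGroup.induction_on with
  | C1 => rw [map_one]; exact one_mem _
  | of o => rw [oHom_of]; exact inv_mem (B.mO o)
  | inv_of o h => rw [map_inv]; exact inv_mem h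
  | mul a b ha hb => rw [map_mul]; exact mul_mem ha hb

variable (M) in
/-- Moving words keeping a field. -/
noncomputable def keeps (f : Vgrp (Point d) →* M.P) : Subgroup F.Free where
  carrier := {c | c ∈ moves M ∧ cj (M.f c) f = f}
  one_mem' := ⟨one_mem _, by rw [map_one, cj_one]⟩
  mul_mem' := by
    rintro a b ⟨a1, a2⟩ ⟨b1, b2⟩
    exact ⟨mul_mem a1 b1, by rw [cj_cj, b2, a2]⟩
  inv_mem' := by
    rintro a ⟨a1, a2⟩
    exact ⟨inv_mem a1, by conv_lhs => rw [← a2, cj_inv_left]⟩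

variable (M) in
/-- Words keeping a field on which they commute with `x`. -/
noncomputable def slides (f : Vgrp (Point d) →* M.P) (x : F.Free) : Subgroup F.Free where
  carrier := {c | c ∈ keeps M f ∧ Same M f (x * c) (c * x)}
  one_mem' := ⟨one_mem _, by rw [mul_one, one_mul]; exact Same.refl _ _⟩
  mul_mem' := by
    rintro a b ⟨a1, a2⟩ ⟨b1, b2⟩
    refine ⟨mul_mem a1 b1, ?_⟩
    have h1 := Same.right b1.1 (b1.2.symm ▸ a2 : Same M (cj (M.f b) f) (x * a) (a * x))
    have h2 := b2.left a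
    rw [mul_assoc, mul_assoc] at h1
    rw [mul_assoc]
    exact h1.trans h2
  inv_mem' := by
    rintro c ⟨c1, c2⟩
    refine ⟨inv_mem c1, ?_⟩
    have h1 := Same.right (inv_mem c1.1) ((inv_mem c1).2.symm ▸ c2)
    have h2 := h1.left c⁻¹
    rw [show c⁻¹ * (x * c * c⁻¹) = c⁻¹ * x by group,
      show c⁻¹ * (c * x * c⁻¹) = x * c⁻¹ by group] at h2
    exact h2.symm

theorem slides_mk {f : Vgrp (Point d) →* M.P} {x c : F.Free} (h1 : c ∈ moves M)
    (h2 : cj (M.f c) f = f) (h3 : Same M f (x * c) (c * x)) : c ∈ slides M f x := ⟨⟨h1, h2⟩, h3⟩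

theorem oHom_mem {S : Subgroup F.Free} (h : ∀ o, oL F o ∈ S) (u : FreeGroup (OG d)) :
    oHom F u ∈ S := by
  induction u using FreeGroup.induction_on with
  | C1 => rw [map_one]; exact one_mem _
  | of o => rw [oHom_of]; exact inv_mem (h o)
  | inv_of o h => rw [map_inv]; exact inv_mem h
  | mul a b ha hb => rw [map_mul]; exact mul_mem ha hb

theorem tW_mem {S : Subgroup F.Free} (h : ∀ i, tL F i ∈ S) : ∀ l, tW F l ∈ S
  | [] => one_mem _
  | i :: l => mul_mem (tW_mem h l) (h i)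

end Vale.Agent.P193.Core.Inst.Laws
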